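import Mathlib

/-! P022, block L2b: power series rings over complete local rings (completeness is the proof of
`P190/H128/E2`), evaluation at nilpotent elements, Chevalley's lemma. -/

set_option linter.all false

namespace Vale.Agent.P022D.L2b

open MvPowerSeries IsLocalRing

section

variable {σ V : Type} [CommRing V] [Fintype σ]

/-- power series whose coefficient in degree `m` lies in `I ^ (n - |m|)`. -/
def JI (σ : Type) (I : Ideal V) (n : ℕ) : Ideal (MvPowerSeries σ V) where
  carrier := {f | ∀ m : σ →₀ ℕ, coeff m f ∈ I ^ (n - m.degree)}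
  zero_mem' := fun m => by rw [map_zero]; exact Ideal.zero_mem _
  add_mem' := fun {a b} ha hb m => by rw [map_add]; exact Ideal.add_mem _ (ha m) (hb m)
  smul_mem' := fun c f hf m => by
    classical
    rw [smul_eq_mul, coeff_mul]
    refine Ideal.sum_mem _ fun ab hab => ?_
    rw [Finset.HasAntidiagonal.mem_antidiagonal] at hab
    have hb : ab.2.degree ≤ m.degree := by
      rw [← hab, map_add]; exact Nat.le_add_left _ _
    exact Ideal.mul_mem_left _ _ (Ideal.pow_le_pow_right (by omega) (hf ab.2))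

omit [Fintype σ] in
theorem mem_JI {I : Ideal V} {n : ℕ} {f : MvPowerSeries σ V} :
    f ∈ JI σ I n ↔ ∀ m : σ →₀ ℕ, coeff m f ∈ I ^ (n - m.degree) := Iff.rfl

omit [Fintype σ] in
theorem JI_mul (I : Ideal V) (a b : ℕ) : JI σ I a * JI σ I b ≤ JI σ I (a + b) := by
  classical
  rw [Ideal.mul_le]
  intro f hf g hg m
  rw [coeff_mul]
  refine Ideal.sum_mem _ fun uv huv => ?_
  rw [Finset.HasAntidiagonal.mem_antidiagonal] at huv
  have hd : uv.1.degree + uv.2.degree = m.degree := by rw [← map_add, huv]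
  have h1 := Ideal.mul_mem_mul (hf uv.1) (hg uv.2)
  rw [← pow_add] at h1
  exact Ideal.pow_le_pow_right (by omega) h1

theorem exists_decompV (f : MvPowerSeries σ V) (hf : constantCoeff f = 0) :
    ∃ g : σ → MvPowerSeries σ V, f = ∑ s, X s * g s ∧
      ∀ (I : Ideal V) (n : ℕ), f ∈ JI σ I (n + 1) → ∀ s, g s ∈ JI σ I n := by
  classical
  have hc : ∀ m : σ →₀ ℕ, ∃ s : Option σ, (m ≠ 0 → ∃ t, s = some t ∧ m t ≠ 0) := by
    intro m
    by_cases h : m = 0
    · exact ⟨none, fun h' => absurd h h'⟩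
    · obtain ⟨t, ht⟩ := Finsupp.ne_iff.mp h
      exact ⟨some t, fun _ => ⟨t, rfl, by simpa only [ne_eq, Finsupp.coe_zero, Pi.zero_apply] using ht⟩⟩
  choose c hc using hc
  let g : σ → MvPowerSeries σ V := fun s m =>
    if c (m + Finsupp.single s 1) = some s then coeff (m + Finsupp.single s 1) f else 0
  have hg : ∀ s m, coeff m (g s) =
      if c (m + Finsupp.single s 1) = some s then coeff (m + Finsupp.single s 1) f else 0 :=
    fun s m => rfl
  refine ⟨g, ?_, ?_⟩
  · ext m
    rw [map_sum]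
    have h1 : ∀ s, coeff m (X s * g s) = if c m = some s ∧ m s ≠ 0 then coeff m f else 0 := by
      intro s
      rw [show (X s : MvPowerSeries σ V) = monomial (Finsupp.single s 1) 1 from rfl,
        coeff_monomial_mul]
      by_cases h : m s = 0
      · have h2 : ¬ Finsupp.single s 1 ≤ m := by
          intro h3
          have := h3 s
          rw [Finsupp.single_eq_same, h] at this
          omega
        rw [if_neg h2, if_neg (fun h3 => h3.2 h)]
      · have h2 : Finsupp.single s 1 ≤ m := by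
          rw [Finsupp.single_le_iff]
          omega
        rw [if_pos h2, one_mul, hg, tsub_add_cancel_of_le h2]
        simp only [ne_eq, h, not_false_eq_true, and_true]
    simp only [h1]
    by_cases hm : m = 0
    · subst hm
      have : coeff 0 f = 0 := hf
      simp only [this, Finsupp.coe_zero, Pi.zero_apply, ne_eq, not_true_eq_false, and_false, ↓reduceIte, Finset.sum_const_zero]
    · obtain ⟨t, ht1, ht2⟩ := hc m hm
      rw [Finset.sum_eq_single t]
      · rw [if_pos ⟨ht1, ht2⟩]
      · intro s _ hs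
        rw [if_neg]
        rintro ⟨h3, -⟩
        rw [ht1] at h3
        exact hs (Option.some.inj h3).symm
      · intro h; exact absurd (Finset.mem_univ t) h
  · intro I n hn s m
    rw [hg]
    split_ifs
    · have h2 := hn (m + Finsupp.single s 1)
      rw [map_add, Finsupp.degree_single] at h2
      have h3 : n + 1 - (m.degree + 1) = n - m.degree := by omega
      rwa [h3] at h2
    · exact Ideal.zero_mem _

variable [IsLocalRing V]

omit [Fintype σ] in
theorem mem_max_iff (f : MvPowerSeries σ V) :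
    f ∈ maximalIdeal (MvPowerSeries σ V) ↔ constantCoeff f ∈ maximalIdeal V := by
  rw [IsLocalRing.mem_maximalIdeal, mem_nonunits_iff, MvPowerSeries.isUnit_iff_constantCoeff,
    IsLocalRing.mem_maximalIdeal, mem_nonunits_iff]

omit [Fintype σ] in
theorem max_le_JI : maximalIdeal (MvPowerSeries σ V) ≤ JI σ (maximalIdeal V) 1 := by
  intro f hf m
  rw [mem_max_iff] at hf
  by_cases h : m = 0
  · subst h
    simpa using hf
  · have : 1 - m.degree = 0 := by
      have : m.degree ≠ 0 := fun h' => h ((Finsupp.degree_eq_zero_iff m).1 h')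
      omega
    rw [this, pow_zero, Ideal.one_eq_top]
    exact Submodule.mem_top

omit [Fintype σ] in
theorem pow_le_JI (n : ℕ) :
    maximalIdeal (MvPowerSeries σ V) ^ n ≤ JI σ (maximalIdeal V) n := by
  induction n with
  | zero =>
    intro f _ m
    rw [Nat.zero_sub, pow_zero, Ideal.one_eq_top]
    exact Submodule.mem_top
  | succ n ih =>
    rw [pow_succ]
    exact (Ideal.mul_mono ih max_le_JI).trans (JI_mul _ n 1)

omit [Fintype σ] in
theorem C_mem_pow {a : V} {n : ℕ} (h : a ∈ maximalIdeal V ^ n) :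
    (C a : MvPowerSeries σ V) ∈ maximalIdeal (MvPowerSeries σ V) ^ n := by
  have h1 : (maximalIdeal V).map (C : V →+* MvPowerSeries σ V) ≤
      maximalIdeal (MvPowerSeries σ V) := by
    rw [Ideal.map_le_iff_le_comap]
    intro x hx
    rw [Ideal.mem_comap, mem_max_iff, constantCoeff_C]
    exact hx
  have h2 : (maximalIdeal V ^ n).map (C : V →+* MvPowerSeries σ V) ≤
      maximalIdeal (MvPowerSeries σ V) ^ n := by
    rw [Ideal.map_pow]
    exact Ideal.pow_right_mono h1 n
  exact h2 (Ideal.mem_map_of_mem _ h)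

theorem JI_le_pow (n : ℕ) :
    JI σ (maximalIdeal V) n ≤ maximalIdeal (MvPowerSeries σ V) ^ n := by
  induction n with
  | zero => rw [pow_zero, Ideal.one_eq_top]; exact le_top
  | succ n ih =>
    intro f hf
    have h0 : constantCoeff (f - C (constantCoeff f)) = 0 := by
      rw [map_sub, constantCoeff_C, sub_self]
    have h1 : constantCoeff f ∈ maximalIdeal V ^ (n + 1) := by
      have := hf 0
      rw [map_zero, Nat.sub_zero] at this
      exact this
    have h2 : f - C (constantCoeff f) ∈ JI σ (maximalIdeal V) (n + 1) := by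
      refine Ideal.sub_mem _ hf (pow_le_JI _ (C_mem_pow h1))
    obtain ⟨g, hg1, hg2⟩ := exists_decompV _ h0
    have h3 : f = C (constantCoeff f) + ∑ s, X s * g s := by rw [← hg1]; ring
    rw [h3]
    refine Ideal.add_mem _ (C_mem_pow h1) (Ideal.sum_mem _ fun s _ => ?_)
    rw [pow_succ']
    refine Ideal.mul_mem_mul ?_ (ih (hg2 _ n h2 s))
    rw [mem_max_iff, constantCoeff_X]
    exact Ideal.zero_mem _

theorem isAdicCompleteV [IsNoetherianRing V] (hV : IsAdicComplete (maximalIdeal V) V) :
    IsAdicComplete (maximalIdeal (MvPowerSeries σ V)) (MvPowerSeries σ V) := by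
  have hN : IsNoetherianRing (MvPowerSeries σ V) := inferInstance
  refine { prec' := ?_ }
  intro f hf
  have h1 : ∀ {m n : ℕ}, m ≤ n → f m - f n ∈ JI σ (maximalIdeal V) m := by
    intro m n hmn
    have := SModEq.sub_mem.mp (hf hmn)
    rw [smul_eq_mul, Ideal.mul_top] at this
    exact pow_le_JI m this
  have h2 : ∀ m : σ →₀ ℕ, ∃ L : V, ∀ n,
      coeff m (f (n + m.degree)) ≡ L [SMOD (maximalIdeal V ^ n • ⊤ : Submodule V V)] := by
    intro m
    refine hV.prec' (fun n => coeff m (f (n + m.degree))) ?_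
    intro a b hab
    rw [SModEq.sub_mem, smul_eq_mul, Ideal.mul_top, ← map_sub]
    have h3 := h1 (m := a + m.degree) (n := b + m.degree) (by omega) m
    rwa [Nat.add_sub_cancel] at h3
  choose L hL using h2
  let Lf : MvPowerSeries σ V := fun m => L m
  have hLc : ∀ m, coeff m Lf = L m := fun m => rfl
  refine ⟨Lf, fun n => ?_⟩
  rw [SModEq.sub_mem, smul_eq_mul, Ideal.mul_top]
  apply JI_le_pow
  intro m
  rw [map_sub, hLc]
  by_cases hmn : m.degree ≤ n
  · have h3 := hL m (n - m.degree)
    rw [Nat.sub_add_cancel hmn, SModEq.sub_mem, smul_eq_mul, Ideal.mul_top] at h3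
    exact h3
  · have : n - m.degree = 0 := by omega
    rw [this, pow_zero, Ideal.one_eq_top]
    exact Submodule.mem_top

end

theorem decomp {σ V : Type} [CommRing V] [Fintype σ] (f : MvPowerSeries σ V) :
    ∃ g : σ → MvPowerSeries σ V, f = C (constantCoeff f) + ∑ s, X s * g s := by
  obtain ⟨g, hg, -⟩ := exists_decompV (f - C (constantCoeff f)) (by simp)
  exact ⟨g, by rw [← hg]; ring⟩

/-- evaluation at nilpotent elements -/
theorem exists_ev {σ O A : Type} [CommRing O] [CommRing A] [Algebra O A] [Finite σ] (x : σ → A)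
    (hx : ∀ i, IsNilpotent (x i)) : ∃ φ : MvPowerSeries σ O →ₐ[O] A, ∀ i, φ (X i) = x i := by
  have h : HasSubst (fun i => (C (x i) : MvPowerSeries Unit A)) :=
    hasSubst_of_constantCoeff_nilpotent fun i => by simpa using hx i
  let c : MvPowerSeries Unit A →ₐ[O] A :=
    { (constantCoeff : MvPowerSeries Unit A →+* A) with
      commutes' := fun r => by
        show constantCoeff (algebraMap O (MvPowerSeries Unit A) r) = _
        rw [MvPowerSeries.algebraMap_apply, constantCoeff_C] }
  refine ⟨c.comp (substAlgHom h), fun i => ?_⟩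
  rw [AlgHom.comp_apply, substAlgHom_X]
  exact constantCoeff_C _

/-- Chevalley's lemma for a directed family of open ideals -/
theorem chevalley {R : Type*} [CommRing R] (m : Ideal R) [IsPrecomplete m R]
    (hfin : ∀ k, Finite (R ⧸ m ^ k)) (𝓘 : Set (Ideal R)) (hne : 𝓘.Nonempty)
    (hdir : ∀ I ∈ 𝓘, ∀ I' ∈ 𝓘, ∃ I'' ∈ 𝓘, I'' ≤ I ∧ I'' ≤ I')
    (hop : ∀ I ∈ 𝓘, ∃ k, m ^ k ≤ I) (N : ℕ) : ∃ I ∈ 𝓘, I ≤ sInf 𝓘 ⊔ m ^ N := by
  have h1 : ∀ k, ∃ I ∈ 𝓘, ∀ I' ∈ 𝓘, I ≤ I' ⊔ m ^ k := by
    intro k
    have := hfin k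
    obtain ⟨_, ⟨I, hI, rfl⟩, hmin⟩ := WellFounded.has_min
      (wellFounded_lt (α := Ideal (R ⧸ m ^ k))) ((fun I => I.map (Ideal.Quotient.mk (m ^ k))) '' 𝓘)
      (hne.image _)
    refine ⟨I, hI, fun I' hI' => ?_⟩
    obtain ⟨I'', h0, h2, h3⟩ := hdir I hI I' hI'
    have h4 : I''.map (Ideal.Quotient.mk (m ^ k)) = I.map (Ideal.Quotient.mk (m ^ k)) :=
      ((Ideal.map_mono h2).eq_or_lt).resolve_right (hmin _ ⟨I'', h0, rfl⟩)
    have h5 := Ideal.comap_mono (f := Ideal.Quotient.mk (m ^ k)) (h4.ge.trans (Ideal.map_mono h3))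
    rw [Ideal.comap_map_of_surjective _ Ideal.Quotient.mk_surjective,
      Ideal.comap_map_of_surjective _ Ideal.Quotient.mk_surjective, ← RingHom.ker_eq_comap_bot,
      Ideal.mk_ker] at h5
    exact le_sup_left.trans h5
  choose T hT hT' using h1
  refine ⟨T N, hT N, fun a ha => ?_⟩
  have h2 : ∀ k (b : T (N + k)), ∃ c : T (N + (k + 1)), b.1 - c.1 ∈ m ^ (N + k) := by
    intro k b
    obtain ⟨c, hc, e, he, hce⟩ := Submodule.mem_sup.1 (hT' (N + k) _ (hT (N + (k + 1))) b.2)
    exact ⟨⟨c, hc⟩, by rw [← hce]; simpa using he⟩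
  choose nx hnx using h2
  let s : ∀ k, T (N + k) := fun k => Nat.rec (motive := fun k => T (N + k)) ⟨a, ha⟩ nx k
  have hs : ∀ k, (s k).1 - (s (k + 1)).1 ∈ m ^ (N + k) := fun k => hnx k (s k)
  have hs2 : ∀ k l, (s k).1 - (s (k + l)).1 ∈ m ^ (N + k) := by
    intro k l
    induction l with
    | zero => simp
    | succ l ih =>
      have := Ideal.add_mem _ ih (Ideal.pow_le_pow_right (by omega : N + k ≤ N + (k + l))
        (hs (k + l)))
      rwa [sub_add_sub_cancel] at this
  obtain ⟨L, hL⟩ := IsPrecomplete.prec' (I := m) (fun k => (s k).1) (fun {k l} hkl => by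
    obtain ⟨d, rfl⟩ := Nat.exists_eq_add_of_le hkl
    rw [SModEq.sub_mem, smul_eq_mul, Ideal.mul_top]
    exact Ideal.pow_le_pow_right (by omega) (hs2 k d))
  have hL' : ∀ k, (s k).1 - L ∈ m ^ k := fun k => by
    have := hL k
    rwa [SModEq.sub_mem, smul_eq_mul, Ideal.mul_top] at this
  have h3 : L ∈ sInf 𝓘 := by
    rw [Submodule.mem_sInf]
    intro I hI
    obtain ⟨k, hk⟩ := hop I hI
    have h4 : (s k).1 ∈ I := (sup_le le_rfl ((Ideal.pow_le_pow_right (by omega)).trans hk))
      (hT' (N + k) I hI (s k).2)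
    have := I.sub_mem h4 (hk (hL' k))
    rwa [sub_sub_cancel] at this
  have h4 : a - L ∈ m ^ N := by
    have := Ideal.add_mem _ (hs2 0 N) (by simpa using hL' (0 + N))
    rw [sub_add_sub_cancel] at this
    exact this
  have := Ideal.add_mem _ (Ideal.mem_sup_left (T := m ^ N) h3) (Ideal.mem_sup_right h4)
  rwa [add_sub_cancel] at this

end Vale.Agent.P022D.L2b
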