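import Vale.Agent.P022D.L2.Ar

/-! # P022, block L2b: residues and roots of unity in the algebraic closure of `ℚ₂` -/

set_option linter.all false

noncomputable section

namespace Vale.Agent.P022D.L2b.B

open Finset

abbrev Om : Type := AlgebraicClosure ℚ_[2]
abbrev GG : Type := Gal(Om / ℚ_[2])

theorem nrm (g : GG) (x : Om) : ‖g x‖ = ‖x‖ := (spectralNorm_eq_of_equiv g x).symm

theorem nrm_alg (c : ℚ_[2]) : ‖algebraMap ℚ_[2] Om c‖ = ‖c‖ := PadicAlgCl.norm_extends 2 c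

theorem nrm_two : ‖(2 : Om)‖ = 1 / 2 := by
  rw [← map_ofNat (algebraMap ℚ_[2] Om) 2, nrm_alg]
  simpa using Padic.norm_p (p := 2)

/-- the integers -/
def Oi : Subring Om where
  carrier := {x | ‖x‖ ≤ 1}
  mul_mem' := fun {a b} ha hb => by
    show ‖a * b‖ ≤ 1
    rw [norm_mul]; exact mul_le_one₀ ha (norm_nonneg _) hb
  one_mem' := norm_one.le
  add_mem' := fun {a b} ha hb => (IsUltrametricDist.norm_add_le_max a b).trans (max_le ha hb)
  zero_mem' := by show ‖(0 : Om)‖ ≤ 1; simp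
  neg_mem' := fun {a} ha => by show ‖-a‖ ≤ 1; rwa [norm_neg]

theorem mem_Oi {x : Om} : x ∈ Oi ↔ ‖x‖ ≤ 1 := Iff.rfl

theorem Oi.map (g : GG) {x : Om} (h : x ∈ Oi) : g x ∈ Oi := by rwa [mem_Oi, nrm]

/-- the maximal ideal -/
def Mi : Ideal Oi where
  carrier := {x | ‖x.1‖ < 1}
  add_mem' := fun {a b} ha hb => (IsUltrametricDist.norm_add_le_max a.1 b.1).trans_lt (max_lt ha hb)
  zero_mem' := by show ‖(0 : Om)‖ < 1; simp
  smul_mem' := fun c x hx => by
    show ‖c.1 * x.1‖ < 1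
    rw [norm_mul]; exact mul_lt_one_of_nonneg_of_lt_one_right c.2 (norm_nonneg _) hx

instance Mi_prime : Mi.IsPrime where
  ne_top' := fun h => by
    have : (1 : Oi) ∈ Mi := h ▸ trivial
    exact absurd (show ‖(1 : Om)‖ < 1 from this) (by simp)
  mem_or_mem' := fun {x y} h => by
    by_contra hn
    push Not at hn
    have a : 1 ≤ ‖x.1‖ := not_lt.1 hn.1
    have b : 1 ≤ ‖y.1‖ := not_lt.1 hn.2
    have c : ‖x.1 * y.1‖ < 1 := h
    rw [norm_mul] at c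
    exact absurd (one_le_mul_of_one_le_of_one_le a b) (not_le.2 c)

/-- the residue ring -/
abbrev Kp : Type := Oi ⧸ Mi

open Classical in
/-- the residue map -/
def rs (x : Om) : Kp := if h : x ∈ Oi then Ideal.Quotient.mk Mi ⟨x, h⟩ else 0

theorem rs_of {x : Om} (h : x ∈ Oi) : rs x = Ideal.Quotient.mk Mi ⟨x, h⟩ := dif_pos h

variable {x y : Om}

theorem rs_add (hx : x ∈ Oi) (hy : y ∈ Oi) : rs (x + y) = rs x + rs y := by
  rw [rs_of hx, rs_of hy, rs_of (add_mem hx hy), ← map_add]; rfl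

theorem rs_sub (hx : x ∈ Oi) (hy : y ∈ Oi) : rs (x - y) = rs x - rs y := by
  rw [rs_of hx, rs_of hy, rs_of (sub_mem hx hy), ← map_sub]; rfl

theorem rs_mul (hx : x ∈ Oi) (hy : y ∈ Oi) : rs (x * y) = rs x * rs y := by
  rw [rs_of hx, rs_of hy, rs_of (mul_mem hx hy), ← map_mul]; rfl

theorem rs_neg (hx : x ∈ Oi) : rs (-x) = -rs x := by
  rw [rs_of hx, rs_of (neg_mem hx), ← map_neg]; rfl

theorem rs_pow (hx : x ∈ Oi) (n : ℕ) : rs (x ^ n) = rs x ^ n := by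
  rw [rs_of hx, rs_of (pow_mem hx n), ← map_pow]; rfl

theorem rs_nat (n : ℕ) : rs (n : Om) = n := by
  rw [rs_of (natCast_mem Oi n), ← map_natCast (Ideal.Quotient.mk Mi)]; rfl

theorem rs_one : rs 1 = 1 := by simpa using rs_nat 1

theorem rs_zero : rs 0 = 0 := by simpa using rs_nat 0

theorem rs_sum {ι : Type} (s : Finset ι) {f : ι → Om} (h : ∀ i ∈ s, f i ∈ Oi) :
    rs (∑ i ∈ s, f i) = ∑ i ∈ s, rs (f i) := by
  classical
  induction s using Finset.induction_on with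
  | empty => simpa using rs_zero
  | insert i s hi ih =>
    rw [sum_insert hi, sum_insert hi, rs_add (h i (mem_insert_self _ _))
      (sum_mem fun j hj => h j (mem_insert_of_mem hj)), ih fun j hj => h j (mem_insert_of_mem hj)]

theorem rs_eq_zero (hx : x ∈ Oi) : rs x = 0 ↔ ‖x‖ < 1 := by
  rw [rs_of hx, Ideal.Quotient.eq_zero_iff_mem]; rfl

theorem rs_eq (hx : x ∈ Oi) (hy : y ∈ Oi) : rs x = rs y ↔ ‖x - y‖ < 1 := by
  rw [← sub_eq_zero, ← rs_sub hx hy, rs_eq_zero (sub_mem hx hy)]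

theorem two_mem : (2 : Om) ∈ Oi := by rw [mem_Oi, nrm_two]; norm_num

theorem rs_two : rs 2 = 0 := (rs_eq_zero two_mem).2 (by rw [nrm_two]; norm_num)

theorem k2 : (2 : Kp) = 0 := by
  have := rs_nat 2
  rw [Nat.cast_ofNat, rs_two, Nat.cast_ofNat] at this
  exact this.symm

instance : CharP Kp 2 := CharTwo.of_one_ne_zero_of_two_eq_zero one_ne_zero k2

theorem rs_two_mul (hx : x ∈ Oi) : rs (2 * x) = 0 := by rw [rs_mul two_mem hx, rs_two, zero_mul]

theorem rs_congr (g : GG) (hx : x ∈ Oi) (hy : y ∈ Oi) (h : rs x = rs y) : rs (g x) = rs (g y) := by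
  rw [rs_eq (Oi.map g hx) (Oi.map g hy), ← map_sub, nrm, ← rs_eq hx hy, h]

theorem rs_fix (g : GG) (hx : x ∈ Oi) (h : rs x ^ 2 = rs x) : rs (g x) = rs x := by
  have : rs x * (rs x - 1) = 0 := by linear_combination h
  rcases mul_eq_zero.1 this with e | e
  · have := rs_congr g hx (zero_mem _) (e.trans rs_zero.symm)
    rw [this, map_zero, rs_zero, e]
  · have e' := sub_eq_zero.1 e
    have := rs_congr g hx (one_mem _) (e'.trans rs_one.symm)
    rw [this, map_one, rs_one, e']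

theorem odd_cast {N : ℕ} (h : Odd N) : (N : Kp) = 1 := by
  obtain ⟨k, rfl⟩ := h
  push_cast
  rw [k2, zero_mul, zero_add]

theorem nrm_of_rs (hx : x ∈ Oi) (h : rs x ≠ 0) : ‖x‖ = 1 :=
  le_antisymm hx (not_lt.1 fun e => h ((rs_eq_zero hx).2 e))

theorem root_nrm {N : ℕ} (hN : N ≠ 0) {u : Om} (h : u ^ N = 1) : ‖u‖ = 1 := by
  have := congrArg norm h
  rw [norm_pow, norm_one] at this
  exact (pow_eq_one_iff_of_nonneg (norm_nonneg _) hN).1 this

theorem root_mem {N : ℕ} (hN : N ≠ 0) {u : Om} (h : u ^ N = 1) : u ∈ Oi := (root_nrm hN h).le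

open Classical in
theorem geo {N : ℕ} {u : Om} (h : u ^ N = 1) :
    ∑ j ∈ range N, u ^ j = if u = 1 then (N : Om) else 0 := by
  split_ifs with e
  · simp [e]
  · have := mul_geom_sum u N
    rw [h, sub_self] at this
    exact (mul_eq_zero.1 this).resolve_left (sub_ne_zero.2 e)

theorem root_one {N : ℕ} (hN : Odd N) {u : Om} (h : u ^ N = 1) (e : rs u = 1) : u = 1 := by
  by_contra hn
  have hu := root_mem hN.pos.ne' h
  have := congrArg rs (geo h)
  rw [if_neg hn, rs_zero, rs_sum _ fun j _ => pow_mem hu j] at this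
  simp only [rs_pow hu, e, one_pow, sum_const, card_range, nsmul_eq_mul, mul_one,
    odd_cast hN] at this
  exact one_ne_zero this

open Classical in
theorem fou {N : ℕ} {Z : Finset Om} (hZ : ∀ w ∈ Z, w ^ N = 1) {v : Om} (hv : v ^ N = 1)
    (hN : N ≠ 0) : ∑ j ∈ range N, v⁻¹ ^ j * ∑ w ∈ Z, w ^ j = if v ∈ Z then (N : Om) else 0 := by
  have v0 : v ≠ 0 := fun e => by rw [e, zero_pow hN] at hv; exact zero_ne_one hv
  simp only [mul_sum, ← mul_pow]
  rw [sum_comm, sum_congr rfl fun w hw => geo (u := v⁻¹ * w) (N := N)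
    (by rw [mul_pow, inv_pow, hv, hZ w hw, inv_one, one_mul])]
  simp only [inv_mul_eq_one₀ v0]
  rw [sum_ite_eq]

theorem key {N : ℕ} (hN : Odd N) {Z Z' : Finset Om} (hZ : ∀ w ∈ Z, w ^ N = 1)
    (hZ' : ∀ w ∈ Z', w ^ N = 1) (h : ∀ j, rs (∑ w ∈ Z, w ^ j) = rs (∑ w ∈ Z', w ^ j)) :
    Z ⊆ Z' := by
  intro v hv
  by_contra hn
  have N0 := hN.pos.ne'
  have a := fou hZ (hZ v hv) N0
  have b := fou hZ' (hZ v hv) N0
  rw [if_pos hv] at a
  rw [if_neg hn] at b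
  have iv : ∀ j, v⁻¹ ^ j ∈ Oi := fun j =>
    pow_mem (root_mem N0 (by rw [inv_pow, hZ v hv, inv_one])) j
  have s : ∀ {Z : Finset Om}, (∀ w ∈ Z, w ^ N = 1) → ∀ j, ∑ w ∈ Z, w ^ j ∈ Oi :=
    fun hZ j => sum_mem fun w hw => pow_mem (root_mem N0 (hZ w hw)) j
  have a' := congrArg rs a
  have b' := congrArg rs b
  rw [rs_sum _ fun j _ => mul_mem (iv j) (s hZ j), rs_nat, odd_cast hN] at a'
  rw [rs_sum _ fun j _ => mul_mem (iv j) (s hZ' j), rs_zero] at b'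
  simp only [rs_mul (iv _) (s hZ _), h] at a'
  simp only [rs_mul (iv _) (s hZ' _)] at b'
  exact one_ne_zero (a'.symm.trans b')

theorem sum_perm {Z : Finset Om} (f : Om → Om) (hf : ∀ w ∈ Z, f w ∈ Z) (hi : Set.InjOn f Z)
    (F : Om → Om) : ∑ w ∈ Z, F (f w) = ∑ w ∈ Z, F w :=
  sum_nbij f hf hi (surjOn_of_injOn_of_card_le f hf hi le_rfl) fun _ _ => rfl

theorem sq_sum {N : ℕ} (hN : N ≠ 0) {Z : Finset Om} (hZ : ∀ w ∈ Z, w ^ N = 1) (j : ℕ) :
    rs (∑ w ∈ Z, (w ^ 2) ^ j) = rs (∑ w ∈ Z, w ^ j) ^ 2 := by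
  have m : ∀ w ∈ Z, w ∈ Oi := fun w hw => root_mem hN (hZ w hw)
  rw [rs_sum _ fun w hw => pow_mem (pow_mem (m w hw) 2) j, rs_sum _ fun w hw => pow_mem (m w hw) j,
    CharTwo.sum_sq]
  refine sum_congr rfl fun w hw => ?_
  rw [← pow_mul, mul_comm, pow_mul, rs_pow (pow_mem (m w hw) j)]

theorem sq_inj {N : ℕ} (hN : Odd N) {a b : Om} (ha : a ^ N = 1) (hb : b ^ N = 1)
    (h : a ^ 2 = b ^ 2) : a = b := by
  obtain ⟨k, rfl⟩ := hN
  rw [pow_succ, pow_mul] at ha hb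
  rw [h] at ha
  exact mul_left_cancel₀ (left_ne_zero_of_mul_eq_one ha) (ha.trans hb.symm)

theorem fixed {x : Om} (h : ∀ g : GG, g x = x) : ∃ c : ℚ_[2], algebraMap ℚ_[2] Om c = x :=
  (InfiniteGalois.mem_range_algebraMap_iff_fixed (k := ℚ_[2]) x).2 h

theorem q_half (c : ℚ_[2]) (h : ‖c‖ < 1) : ‖c‖ ≤ 1 / 2 := by
  have := (Padic.norm_le_pow_iff_norm_lt_pow_add_one c (-1)).2 (by simpa using h)
  simpa using this

theorem q_sq {c : ℚ_[2]} (h : ‖c‖ ≤ 1) :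
    rs (algebraMap ℚ_[2] Om c) ^ 2 = rs (algebraMap ℚ_[2] Om c) := by
  let z : ℤ_[2] := ⟨c, h⟩
  have m : algebraMap ℚ_[2] Om c ∈ Oi := by rwa [mem_Oi, nrm_alg]
  have hz := PadicInt.toZMod_spec z
  have hz' : ‖c - ((PadicInt.toZMod z).val : ℚ_[2])‖ < 1 := by
    have := PadicInt.mem_nonunits.1 hz
    rw [ZMod.cast_eq_val, PadicInt.norm_def, PadicInt.coe_sub, PadicInt.coe_natCast] at this
    exact this
  have e : rs (algebraMap ℚ_[2] Om c) = ((PadicInt.toZMod z).val : Kp) := by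
    rw [← rs_nat, rs_eq m (natCast_mem _ _), ← map_natCast (algebraMap ℚ_[2] Om), ← map_sub,
      nrm_alg]
    exact hz'
  rw [e]
  rcases L2.Ar.z2 (PadicInt.toZMod z) with h | h <;> rw [h] <;> simp [ZMod.val_one]

open Classical in
/-- the roots of unity with a property -/
def Zp (N : ℕ) (p : Om → Prop) : Finset Om := (Polynomial.nthRootsFinset N (1 : Om)).filter p

theorem mem_Zp {N : ℕ} (hN : N ≠ 0) {p : Om → Prop} {w : Om} : w ∈ Zp N p ↔ w ^ N = 1 ∧ p w := by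
  classical
  rw [Zp, mem_filter, Polynomial.mem_nthRootsFinset (Nat.pos_of_ne_zero hN)]

theorem exists_frob {N : ℕ} (hN : Odd N) {ζ : Om} (hζ : ζ ^ N = 1) : ∃ φ : GG, φ ζ = ζ ^ 2 := by
  classical
  have N0 := hN.pos.ne'
  set Z := Zp N fun w => ∃ g : GG, w = g ζ with hZd
  have hZ : ∀ w ∈ Z, w ^ N = 1 := fun w hw => ((mem_Zp N0).1 hw).1
  have sub : Z.image (· ^ 2) ⊆ Z := by
    refine key hN (fun w hw => ?_) hZ fun j => ?_
    · obtain ⟨v, hv, rfl⟩ := mem_image.1 hw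
      rw [← pow_mul, mul_comm, pow_mul, hZ v hv, one_pow]
    · rw [sum_image fun a ha b hb e => sq_inj hN (hZ a ha) (hZ b hb) e, sq_sum N0 hZ]
      obtain ⟨c, hc⟩ := fixed (x := ∑ w ∈ Z, w ^ j) fun g => by
        rw [map_sum]
        simp only [map_pow]
        refine sum_perm g (fun w hw => ?_) g.injective.injOn (· ^ j)
        obtain ⟨a, g', rfl⟩ := (mem_Zp N0).1 hw
        exact (mem_Zp N0).2 ⟨by rw [← map_pow, a, map_one], g * g', rfl⟩
      rw [← hc]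
      refine q_sq ?_
      rw [← nrm_alg, hc]
      exact (sum_mem fun w hw => pow_mem (root_mem N0 (hZ w hw)) j : _ ∈ Oi)
  obtain ⟨-, g, hg⟩ := (mem_Zp N0).1 (sub (mem_image_of_mem _ ((mem_Zp N0).2 ⟨hζ, 1, rfl⟩)))
  exact ⟨g, hg.symm⟩

theorem gen_frob {N : ℕ} (hN : Odd N) {ζ : Om} (hζ : ζ ^ N = 1) (g : GG) :
    ∃ i : ℕ, g ζ = ζ ^ 2 ^ i := by
  classical
  have N0 := hN.pos.ne'
  set Z := Zp N fun w => ∃ i : ℕ, w = ζ ^ 2 ^ i with hZd
  have hZ : ∀ w ∈ Z, w ^ N = 1 := fun w hw => ((mem_Zp N0).1 hw).1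
  have sub : Z.image g ⊆ Z := by
    refine key hN (fun w hw => ?_) hZ fun j => ?_
    · obtain ⟨v, hv, rfl⟩ := mem_image.1 hw
      rw [← map_pow, hZ v hv, map_one]
    · rw [sum_image g.injective.injOn]
      simp only [← map_pow, ← map_sum]
      refine rs_fix g (sum_mem fun w hw => pow_mem (root_mem N0 (hZ w hw)) j) ?_
      rw [← sq_sum N0 hZ, sum_perm (· ^ 2) (fun w hw => ?_)
        (fun a ha b hb e => sq_inj hN (hZ a ha) (hZ b hb) e) (· ^ j)]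
      obtain ⟨a, i, rfl⟩ := (mem_Zp N0).1 hw
      exact (mem_Zp N0).2 ⟨by rw [← pow_mul, mul_comm, pow_mul, a, one_pow], i + 1, by
        rw [← pow_mul, pow_succ]⟩
  exact ((mem_Zp N0).1 (sub (mem_image_of_mem _ ((mem_Zp N0).2 ⟨hζ, 0, by simp⟩)))).2

end Vale.Agent.P022D.L2b.B
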