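import Vale.Agent.P022D.L2b.B1

/-! # P022, block L2b: unramified extensions of `ℚ₂`; characters of odd order are unramified -/

set_option linter.all false

noncomputable section

namespace Vale.Agent.P022D.L2b.B

open Finset

/-- fixed by `H` -/
def Fx (H : Subgroup GG) (y : Om) : Prop := ∀ h ∈ H, h y = y

section fx

variable {H : Subgroup GG} {x y : Om}

theorem Fx.add (a : Fx H x) (b : Fx H y) : Fx H (x + y) := fun h hh => by
  rw [map_add, a h hh, b h hh]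

theorem Fx.sub (a : Fx H x) (b : Fx H y) : Fx H (x - y) := fun h hh => by
  rw [map_sub, a h hh, b h hh]

theorem Fx.mul (a : Fx H x) (b : Fx H y) : Fx H (x * y) := fun h hh => by
  rw [map_mul, a h hh, b h hh]

theorem Fx.div (a : Fx H x) (b : Fx H y) : Fx H (x / y) := fun h hh => by
  rw [map_div₀, a h hh, b h hh]

theorem Fx.inv (a : Fx H x) : Fx H x⁻¹ := fun h hh => by rw [map_inv₀, a h hh]

theorem Fx.neg (a : Fx H x) : Fx H (-x) := fun h hh => by rw [map_neg, a h hh]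

theorem Fx.pow (a : Fx H x) (n : ℕ) : Fx H (x ^ n) := fun h hh => by rw [map_pow, a h hh]

theorem Fx.zpow (a : Fx H x) (n : ℤ) : Fx H (x ^ n) := fun h hh => by rw [map_zpow₀, a h hh]

theorem Fx.one : Fx H 1 := fun h _ => map_one h

theorem Fx.zero : Fx H 0 := fun h _ => map_zero h

theorem Fx.two : Fx H 2 := fun h _ => map_ofNat h 2

theorem Fx.four : Fx H 4 := fun h _ => map_ofNat h 4

theorem Fx.sum {ι : Type} {s : Finset ι} {f : ι → Om} (a : ∀ i ∈ s, Fx H (f i)) :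
    Fx H (∑ i ∈ s, f i) := fun h hh => by
  rw [map_sum]; exact sum_congr rfl fun i hi => a i hi h hh

theorem Fx.map [hn : H.Normal] (a : Fx H x) (g : GG) : Fx H (g x) := fun h hh => by
  have := a _ (hn.conj_mem' h hh g)
  rw [← AlgEquiv.mul_apply, show h * g = g * (g⁻¹ * h * g) by group, AlgEquiv.mul_apply, this]

/-- the trace -/
def tr (φ : GG) (n : ℕ) (y : Om) : Om := ∑ i ∈ range n, (φ ^ i) y

theorem tr_mem (φ : GG) (n : ℕ) (h : y ∈ Oi) : tr φ n y ∈ Oi := sum_mem fun _ _ => Oi.map _ h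

theorem tr_phi {φ : GG} {n : ℕ} (hn : φ ^ n ∈ H) (a : Fx H y) : φ (tr φ n y) = tr φ n y := by
  have h1 := sum_range_succ (fun i => (φ ^ i) y) n
  have h2 := sum_range_succ' (fun i => (φ ^ i) y) n
  simp only [pow_zero, AlgEquiv.one_apply, a _ hn] at h1 h2
  rw [tr, map_sum]
  simp only [← AlgEquiv.mul_apply, ← pow_succ']
  exact add_right_cancel (h2.symm.trans h1)

theorem tr_fix [H.Normal] {φ : GG} {n : ℕ} (hn : φ ^ n ∈ H)
    (hg : ∀ g : GG, ∃ i : ℕ, (φ ^ i)⁻¹ * g ∈ H) (a : Fx H y) (g : GG) :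
    g (tr φ n y) = tr φ n y := by
  obtain ⟨i, hi⟩ := hg g
  have h1 : Fx H (tr φ n y) := Fx.sum fun i _ => a.map _
  rw [← mul_inv_cancel_left (φ ^ i) g, AlgEquiv.mul_apply, h1 _ hi]
  clear hi
  induction i with
  | zero => rfl
  | succ i ih => rw [pow_succ, AlgEquiv.mul_apply, tr_phi hn a, ih]

end fx

/-- the fixed field of `H` is unramified with Frobenius `φ` -/
structure Un (H : Subgroup GG) (φ : GG) : Prop where
  half : ∀ y, Fx H y → ‖y‖ < 1 → ‖y‖ ≤ 1 / 2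
  frob : ∀ y, Fx H y → y ∈ Oi → rs (φ y) = rs y ^ 2

theorem Un.mono {H H' : Subgroup GG} {φ : GG} (h : Un H' φ) (le : H' ≤ H) : Un H φ :=
  ⟨fun y a => h.half y fun g hg => a g (le hg), fun y a => h.frob y fun g hg => a g (le hg)⟩

theorem Un.val {H : Subgroup GG} {φ : GG} (h : Un H φ) {y : Om} (a : Fx H y) (h0 : y ≠ 0) :
    ∃ m : ℤ, ‖y * 2 ^ m‖ = 1 := by
  obtain ⟨m, h1, h2⟩ := exists_mem_Ioc_zpow (norm_pos_iff.2 h0) (show (1 : ℝ) < 2 by norm_num)
  have e : ‖y * 2 ^ (m + 1)‖ = ‖y‖ / 2 ^ (m + 1) := by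
    rw [norm_mul, norm_zpow, nrm_two, one_div, inv_zpow, div_eq_mul_inv]
  have p : (0 : ℝ) < 2 ^ (m + 1) := by positivity
  refine ⟨m + 1, le_antisymm (by rw [e, div_le_one p]; exact h2) (not_lt.1 fun hl => ?_)⟩
  have := h.half _ (a.mul (Fx.two.zpow _)) hl
  rw [e, div_le_iff₀ p, zpow_add_one₀ two_ne_zero] at this
  linarith

theorem Un.frob_pow {H : Subgroup GG} [H.Normal] {φ : GG} (h : Un H φ) {y : Om} (a : Fx H y)
    (m : y ∈ Oi) (i : ℕ) : rs ((φ ^ i) y) = rs y ^ 2 ^ i := by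
  induction i with
  | zero => simp
  | succ i ih =>
    rw [pow_succ', AlgEquiv.mul_apply, h.frob _ (a.map _) (Oi.map _ m), ih, ← pow_mul, pow_succ]

section cyc

variable {N : ℕ} (hN : Odd N) {ζ : Om} (hζ : ζ ^ N = 1) {φ : GG} (hφ : φ ζ = ζ ^ 2)

include hφ in
theorem phi_pow (i : ℕ) : (φ ^ i) ζ = ζ ^ 2 ^ i := by
  induction i with
  | zero => simp
  | succ i ih => rw [pow_succ', AlgEquiv.mul_apply, ih, map_pow, hφ, ← pow_mul, pow_succ']

include hN hζ in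
theorem stab_normal : (MulAction.stabilizer GG ζ).Normal := ⟨fun h hh g => by
  obtain ⟨i, hi⟩ := gen_frob hN hζ g⁻¹
  have hh' : h ζ = ζ := hh
  show g (h (g⁻¹ ζ)) = ζ
  rw [hi, map_pow, hh', ← hi, ← AlgEquiv.mul_apply, mul_inv_cancel, AlgEquiv.one_apply]⟩

include hN hζ hφ

theorem stab_gen (g : GG) : ∃ i : ℕ, (φ ^ i)⁻¹ * g ∈ MulAction.stabilizer GG ζ := by
  obtain ⟨i, hi⟩ := gen_frob hN hζ g
  refine ⟨i, ?_⟩
  show (φ ^ i)⁻¹ (g ζ) = ζ
  rw [hi, ← phi_pow hφ, ← AlgEquiv.mul_apply, inv_mul_cancel, AlgEquiv.one_apply]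

theorem un_stab : Un (MulAction.stabilizer GG ζ) φ := by
  classical
  haveI := stab_normal hN hζ
  have N0 := hN.pos.ne'
  have z0 : ζ ≠ 0 := fun e => by rw [e, zero_pow N0] at hζ; exact zero_ne_one hζ
  have ex : ∃ d, 0 < d ∧ (φ ^ d) ζ = ζ := by
    refine ⟨N.totient, Nat.totient_pos.2 hN.pos, ?_⟩
    rw [phi_pow hφ, pow_eq_pow_of_modEq (Nat.ModEq.pow_totient
      (Nat.coprime_two_left.2 hN)) hζ, pow_one]
  obtain ⟨d0, hd⟩ := Nat.find_spec ex
  have hmin : ∀ i < Nat.find ex, 0 < i → (φ ^ i) ζ ≠ ζ := fun i hi h0 e => Nat.find_min ex hi ⟨h0, e⟩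
  generalize Nat.find ex = d at d0 hd hmin
  have fz : Fx (MulAction.stabilizer GG ζ) ζ := fun h hh => hh
  have mz := root_mem N0 hζ
  have four : ∀ y, Fx (MulAction.stabilizer GG ζ) y → ∃ c : ℕ → ℚ_[2], (∀ j, ‖c j‖ ≤ ‖y‖) ∧
      (N : Om) * y = ∑ j ∈ range N, algebraMap ℚ_[2] Om (c j) * ζ ^ j := by
    intro y hy
    choose c hc using fun j : ℕ => fixed (tr_fix (n := d) hd (stab_gen hN hζ hφ)
      (hy.mul (fz.inv.pow j)))
    refine ⟨c, fun j => ?_, ?_⟩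
    · rw [← nrm_alg, hc, tr]
      refine IsUltrametricDist.norm_sum_le_of_forall_le_of_nonneg (norm_nonneg _) fun i _ => ?_
      rw [nrm, norm_mul, norm_pow, norm_inv, root_nrm N0 hζ, inv_one, one_pow, mul_one]
    · simp only [hc, tr, sum_mul, map_mul, map_pow, mul_assoc, ← mul_pow]
      rw [sum_comm]
      simp only [← mul_sum]
      rw [sum_eq_single 0]
      · simp [z0, mul_comm]
      · intro i hi h0
        rw [geo, if_neg, mul_zero]
        · rw [map_inv₀, inv_mul_eq_one₀ ((map_ne_zero _).2 z0)]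
          exact hmin i (mem_range.1 hi) (Nat.pos_of_ne_zero h0)
        · rw [mul_pow, ← map_pow, inv_pow, hζ, inv_one, map_one, one_mul]
      · intro h; exact absurd (mem_range.2 d0) h
  have nN : ‖(N : Om)‖ = 1 := nrm_of_rs (natCast_mem _ _) (by
    rw [rs_nat, odd_cast hN]; exact one_ne_zero)
  refine ⟨fun y hy h1 => ?_, fun y hy h1 => ?_⟩
  · obtain ⟨c, hc, e⟩ := four y hy
    rw [show ‖y‖ = ‖(N : Om) * y‖ by rw [norm_mul, nN, one_mul], e]
    refine IsUltrametricDist.norm_sum_le_of_forall_le_of_nonneg (by norm_num) fun j _ => ?_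
    rw [norm_mul, norm_pow, root_nrm N0 hζ, one_pow, mul_one, nrm_alg]
    exact q_half _ ((hc j).trans_lt h1)
  · obtain ⟨c, hc, e⟩ := four y hy
    have mc : ∀ j, algebraMap ℚ_[2] Om (c j) ∈ Oi := fun j => by
      rw [mem_Oi, nrm_alg]; exact (hc j).trans h1
    have e1 := congrArg rs e
    have e2 := congrArg (fun t => rs (φ t)) e
    simp only [map_mul, map_natCast, map_sum, map_pow, AlgEquiv.commutes, hφ] at e2
    rw [rs_mul (natCast_mem _ _) h1, rs_nat, odd_cast hN, one_mul,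
      rs_sum _ fun j _ => mul_mem (mc j) (pow_mem mz j)] at e1
    rw [rs_mul (natCast_mem _ _) (Oi.map φ h1), rs_nat, odd_cast hN, one_mul,
      rs_sum _ fun j _ => mul_mem (mc j) (pow_mem (pow_mem mz 2) j)] at e2
    rw [e1, e2, CharTwo.sum_sq]
    refine sum_congr rfl fun j _ => ?_
    rw [rs_mul (mc j) (pow_mem mz j), rs_mul (mc j) (pow_mem (pow_mem mz 2) j), mul_pow,
      q_sq ((hc j).trans h1), ← pow_mul, mul_comm 2 j, pow_mul, rs_pow (pow_mem mz j)]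

end cyc

/-- Lagrange resolvent -/
theorem resolvent {A : Type} [CommGroup A] [Finite A] (θ : GG →* A) (hθ : IsLocallyConstant θ)
    (e : A →* Omˣ) (H : Subgroup GG) (hH : IsClosed (H : Set GG)) (he : ∀ a, Fx H (e a : Om)) :
    ∃ α : Om, α ≠ 0 ∧ ∀ h ∈ H, h α = e (θ h) * α := by
  classical
  let V : Subgroup GG := H ⊓ θ.ker
  have hV : IsClosed (V : Set GG) := hH.inter (hθ.isClosed_fiber 1)
  let E := IntermediateField.fixedField V
  let D := H.map θ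
  haveI : Fintype D := Fintype.ofFinite D
  choose r hr1 hr2 using fun δ : D => Subgroup.mem_map.1 δ.2
  let f : D → E →* Om := fun δ => ⟨⟨fun y => r δ y.1, map_one _⟩, fun _ _ => map_mul _ _ _⟩
  have fix : ∀ v ∈ V, ∀ y : E, v y.1 = y.1 := fun v hv y =>
    (IntermediateField.mem_fixedField_iff V y.1).1 y.2 v hv
  have inj : Function.Injective f := fun δ δ' h => by
    have h1 : (r δ')⁻¹ * r δ ∈ E.fixingSubgroup := by
      rw [IntermediateField.mem_fixingSubgroup_iff]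
      intro y hy
      have : r δ y = r δ' y := DFunLike.congr_fun h ⟨y, hy⟩
      rw [AlgEquiv.mul_apply, this, ← AlgEquiv.mul_apply, inv_mul_cancel, AlgEquiv.one_apply]
    have h2 : E.fixingSubgroup = V :=
      InfiniteGalois.fixingSubgroup_fixedField (⟨V, hV⟩ : ClosedSubgroup GG)
    rw [h2] at h1
    have h3 : θ ((r δ')⁻¹ * r δ) = 1 := h1.2
    rw [map_mul, map_inv, hr2, hr2, inv_mul_eq_one] at h3
    exact Subtype.ext h3.symm
  have li := Fintype.linearIndependent_iff.1 ((linearIndependent_monoidHom E Om).comp f inj)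
    fun δ => ((e δ.1)⁻¹ : Omˣ)
  have ex : ∃ y : E, ∑ δ : D, (((e δ.1)⁻¹ : Omˣ) : Om) * r δ y.1 ≠ 0 := by
    by_contra hn
    push Not at hn
    exact Units.ne_zero _ (li (funext fun y => by
      rw [Finset.sum_apply]; exact hn y) 1)
  obtain ⟨y, hy⟩ := ex
  refine ⟨_, hy, fun h hh => ?_⟩
  let t : D := ⟨θ h, Subgroup.mem_map_of_mem θ hh⟩
  rw [map_sum, mul_sum]
  refine (sum_congr rfl fun δ _ => ?_).trans (Equiv.sum_comp (Equiv.mulLeft t) _)
  have h1 : (r (t * δ))⁻¹ * (h * r δ) ∈ V :=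
    ⟨H.mul_mem (H.inv_mem (hr1 _)) (H.mul_mem hh (hr1 _)), by
      show θ _ = 1
      rw [map_mul, map_mul, map_inv, hr2, hr2]
      exact inv_mul_cancel _⟩
  have h2 : h (r δ y.1) = r (t * δ) y.1 := by
    rw [← AlgEquiv.mul_apply, ← mul_inv_cancel_left (r (t * δ)) (h * r δ), AlgEquiv.mul_apply,
      fix _ h1]
  show _ = (e (θ h) : Om) * ((((e (θ h * δ.1))⁻¹ : Omˣ) : Om) * r (t * δ) y.1)
  rw [map_mul, h2, ← map_inv e, he _ h hh, ← mul_assoc, ← Units.val_mul, map_mul e, mul_inv,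
    mul_inv_cancel_left, map_inv]

theorem near_root {N : ℕ} (hN : N ≠ 0) {ζ : Om} (hζ : IsPrimitiveRoot ζ N) {α : Om} (m : α ∈ Oi)
    (h : rs α ^ N = 1) : ∃ i, rs α = rs (ζ ^ i) := by
  have e := congrArg (Polynomial.eval α) (X_pow_sub_C_eq_prod hζ (Nat.pos_of_ne_zero hN)
    (one_pow N))
  simp only [Polynomial.eval_sub, Polynomial.eval_pow, Polynomial.eval_X, Polynomial.eval_C,
    Polynomial.eval_prod, mul_one] at e
  have mz := root_mem hN hζ.pow_eq_one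
  have h1 : ‖α ^ N - 1‖ < 1 := by
    rw [← rs_eq (pow_mem m N) (one_mem _), rs_pow m, rs_one, h]
  by_contra hn
  push Not at hn
  rw [e, norm_prod, prod_eq_one fun i _ => nrm_of_rs (sub_mem m (pow_mem mz i)) (by
    rw [rs_sub m (pow_mem mz i)]; exact sub_ne_zero.2 (hn i))] at h1
  exact lt_irrefl _ h1

/-- characters of odd order are unramified -/
theorem unram {A : Type} [CommGroup A] [Finite A] [IsCyclic A] {f : ℕ} (hf : f ≠ 0)
    (hA : Nat.card A + 1 = 2 ^ f) (θ : GG →* A) (hθ : IsLocallyConstant θ) :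
    ∃ (N : ℕ) (ζ : Om), Odd N ∧ ζ ^ N = 1 ∧ MulAction.stabilizer GG ζ ≤ θ.ker := by
  set M := Nat.card A with hM
  have oM : Odd M := by
    have : Even (M + 1) := hA ▸ (Nat.even_pow.2 ⟨even_two, hf⟩)
    exact Nat.not_even_iff_odd.1 (Nat.even_add_one.1 this)
  have M0 := oM.pos.ne'
  have oN : Odd (M * M) := oM.mul oM
  have N0 := oN.pos.ne'
  haveI : NeZero (M * M) := ⟨N0⟩
  obtain ⟨ζ, hζ⟩ := HasEnoughRootsOfUnity.exists_primitiveRoot Om (M * M)
  have hξ : IsPrimitiveRoot (ζ ^ M) M := hζ.pow oN.pos rfl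
  set ξ := ζ ^ M with hξd
  obtain ⟨γ, hγ⟩ := IsCyclic.exists_generator (α := A)
  have oγ : orderOf γ = M := orderOf_eq_card_of_forall_mem_zpowers hγ
  let u : Omˣ := Units.mk0 ξ (hξ.ne_zero M0)
  have hu : IsPrimitiveRoot u M := IsPrimitiveRoot.coe_units_iff.1 hξ
  let e : A →* Omˣ := monoidHomOfForallMemZpowers hγ (g' := u) (by rw [oγ, ← hu.eq_orderOf])
  have eγ : e γ = u := monoidHomOfForallMemZpowers_apply_gen _ _
  have ev : ∀ a, ∃ k : ℤ, a = γ ^ k ∧ (e a : Om) = ξ ^ k := fun a => by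
    obtain ⟨k, rfl⟩ := Subgroup.mem_zpowers_iff.1 (hγ a)
    exact ⟨k, rfl, by rw [map_zpow, eγ, Units.val_zpow_eq_zpow_val]; rfl⟩
  obtain ⟨φ, hφ⟩ := exists_frob oM hξ.pow_eq_one
  have un := un_stab oM hξ.pow_eq_one hφ
  haveI := stab_normal oM hξ.pow_eq_one
  set H := MulAction.stabilizer GG ξ with hH
  have fz : Fx H ξ := fun h hh => hh
  obtain ⟨α, α0, hα⟩ := resolvent θ hθ e H
    (H.isClosed_of_isOpen (stabilizer_isOpen_of_isIntegral ξ)) fun a => by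
      obtain ⟨k, -, hk⟩ := ev a
      rw [hk]; exact fz.zpow k
  have eM : ∀ a, (e a : Om) ^ M = 1 := fun a => by
    rw [← Units.val_pow_eq_pow_val, ← map_pow, pow_card_eq_one', map_one, Units.val_one]
  have fβ : Fx H (φ α / α ^ 2) := fun h hh => by
    have h1 : h (φ α) = e (θ h) ^ 2 * φ α := by
      rw [← AlgEquiv.mul_apply, show h * φ = φ * (φ⁻¹ * h * φ) by group, AlgEquiv.mul_apply,
        hα _ (this.conj_mem' h hh φ), map_mul θ, map_mul θ, map_inv θ, inv_mul_cancel_comm,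
        map_mul φ]
      obtain ⟨k, -, hk⟩ := ev (θ h)
      rw [hk, map_zpow₀, hφ, ← zpow_natCast, ← zpow_natCast, ← zpow_mul, ← zpow_mul, mul_comm k]
    rw [map_div₀, map_pow, h1, hα h hh, mul_pow,
      mul_div_mul_left _ _ (pow_ne_zero 2 (Units.ne_zero _))]
  obtain ⟨m, hm⟩ := un.val fβ (div_ne_zero ((map_ne_zero φ).2 α0) (pow_ne_zero 2 α0))
  set β := α / 2 ^ m with hβd
  have n1 : ‖β‖ = 1 := by
    have a0 : ‖α‖ ≠ 0 := norm_ne_zero_iff.2 α0
    have t0 : ‖(2 : Om) ^ m‖ ≠ 0 := norm_ne_zero_iff.2 (zpow_ne_zero _ two_ne_zero)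
    rw [norm_mul, norm_div, nrm, norm_pow] at hm
    rw [hβd, norm_div, div_eq_one_iff_eq t0]
    field_simp at hm
    exact hm.symm
  have mβ : β ∈ Oi := n1.le
  have hβ : ∀ h ∈ H, h β = e (θ h) * β := fun h hh => by
    rw [hβd, map_div₀, hα h hh, (Fx.two.zpow m) h hh, mul_div_assoc]
  have r0 : rs β ≠ 0 := fun h => by rw [rs_eq_zero mβ, n1] at h; exact lt_irrefl _ h
  have fu : Fx H (β ^ M) := fun h hh => by rw [map_pow, hβ h hh, mul_pow, eM, one_mul]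
  have pf : φ ^ f ∈ H := by
    show (φ ^ f) ξ = ξ
    rw [phi_pow hφ, ← hA, pow_succ, hξ.pow_eq_one, one_mul]
  have h1 := un.frob_pow fu (pow_mem mβ M) f
  rw [fu _ pf, ← hA, pow_succ, rs_pow mβ] at h1
  have h2 : rs β ^ (M * M) = 1 := by
    rw [pow_mul]
    exact (mul_right_cancel₀ (pow_ne_zero M r0) (h1.symm.trans (one_mul _).symm))
  obtain ⟨i, hi⟩ := near_root N0 hζ mβ h2
  refine ⟨M * M, ζ, oN, hζ.pow_eq_one, fun h hh => ?_⟩
  have hz : h ζ = ζ := hh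
  have hh' : h ∈ H := by
    show h (ζ ^ M) = ζ ^ M
    rw [map_pow, hz]
  have h3 := rs_congr h mβ (pow_mem (root_mem N0 hζ.pow_eq_one) i) hi
  rw [map_pow, hz, ← hi, hβ h hh', rs_mul (root_mem M0 (eM _)) mβ] at h3
  have h4 := root_one oM (eM (θ h)) (mul_right_cancel₀ r0 (h3.trans (one_mul _).symm))
  obtain ⟨k, hk, hk'⟩ := ev (θ h)
  rw [hk', hξ.zpow_eq_one_iff_dvd, ← oγ, orderOf_dvd_iff_zpow_eq_one] at h4
  exact hk.trans h4

/-- the unramified package of a character -/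
structure Pk {A : Type} [CommGroup A] (θ : GG →* A) (φ : GG) (n : ℕ) : Prop where
  un : Un θ.ker φ
  ord : orderOf (θ φ) = n
  odd : Odd n
  gen : ∀ g : GG, ∃ i : ℕ, (φ ^ i)⁻¹ * g ∈ θ.ker
  ind : ∀ J ⊆ range n, 0 ∈ J → ∃ x, Fx θ.ker x ∧ x ∈ Oi ∧ rs (∑ i ∈ J, (φ ^ i) x) ≠ 0

theorem pk {A : Type} [CommGroup A] [Finite A] [IsCyclic A] {f : ℕ} (hf : f ≠ 0)
    (hA : Nat.card A + 1 = 2 ^ f) (θ : GG →* A) (hθ : IsLocallyConstant θ) :
    ∃ φ n, Pk θ φ n := by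
  classical
  obtain ⟨N, ζ, oN, hζ, le⟩ := unram hf hA θ hθ
  obtain ⟨φ, hφ⟩ := exists_frob oN hζ
  have N0 := oN.pos.ne'
  have oM : Odd (Nat.card A) := by
    have : Even (Nat.card A + 1) := hA ▸ (Nat.even_pow.2 ⟨even_two, hf⟩)
    exact Nat.not_even_iff_odd.1 (Nat.even_add_one.1 this)
  refine ⟨φ, _, (un_stab oN hζ hφ).mono le, rfl, oM.of_dvd_nat (orderOf_dvd_natCard _),
    fun g => (stab_gen oN hζ hφ g).imp fun i h => le h, fun J hJ h0 => ?_⟩
  set Z := Zp N fun w => ∃ h ∈ θ.ker, w = h ζ with hZd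
  have hZ : ∀ w ∈ Z, w ^ N = 1 := fun w hw => ((mem_Zp N0).1 hw).1
  have mx : ∀ j, ∑ w ∈ Z, w ^ j ∈ Oi := fun j =>
    sum_mem fun w hw => pow_mem (root_mem N0 (hZ w hw)) j
  have fx : ∀ j, Fx θ.ker (∑ w ∈ Z, w ^ j) := fun j g hg => by
    rw [map_sum]
    simp only [map_pow]
    refine sum_perm g (fun w hw => ?_) g.injective.injOn (· ^ j)
    obtain ⟨a, g', hg', rfl⟩ := (mem_Zp N0).1 hw
    exact (mem_Zp N0).2 ⟨by rw [← map_pow, a, map_one], g * g', mul_mem hg hg', rfl⟩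
  by_contra hn
  push Not at hn
  have iv : ∀ j, ζ⁻¹ ^ j ∈ Oi := fun j =>
    pow_mem (root_mem N0 (by rw [inv_pow, hζ, inv_one])) j
  have e : ∑ j ∈ range N, ζ⁻¹ ^ j * ∑ i ∈ J, (φ ^ i) (∑ w ∈ Z, w ^ j) = N := by
    have e1 : ∀ i j : ℕ, (φ ^ i) (∑ w ∈ Z, w ^ j) = ∑ w ∈ Z.image (φ ^ i : GG), w ^ j := fun i j => by
      rw [sum_image (φ ^ i).injective.injOn, map_sum]
      simp only [map_pow]
    simp only [e1, mul_sum J]
    rw [sum_comm, sum_congr rfl fun i _ => fou (Z := Z.image (φ ^ i : GG)) (fun w hw => by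
      obtain ⟨v, hv, rfl⟩ := mem_image.1 hw
      rw [← map_pow, hZ v hv, map_one]) hζ N0, sum_eq_single_of_mem 0 h0]
    · exact if_pos (mem_image.2 ⟨ζ, (mem_Zp N0).2 ⟨hζ, 1, one_mem _, rfl⟩, rfl⟩)
    · intro i hi i0
      refine if_neg fun hw => ?_
      obtain ⟨v, hv, ev⟩ := mem_image.1 hw
      obtain ⟨-, h, hh, rfl⟩ := (mem_Zp N0).1 hv
      have h1 : θ (φ ^ i * h) = 1 := le ev
      rw [map_mul, show θ h = 1 from hh, mul_one, map_pow] at h1
      exact pow_ne_one_of_lt_orderOf i0 (mem_range.1 (hJ hi)) h1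
  have ms : ∀ j, ∑ i ∈ J, (φ ^ i) (∑ w ∈ Z, w ^ j) ∈ Oi := fun j =>
    sum_mem fun i _ => Oi.map _ (mx j)
  have e' := congrArg rs e
  rw [rs_sum _ fun j _ => mul_mem (iv j) (ms j), rs_nat, odd_cast oN] at e'
  simp only [rs_mul (iv _) (ms _), hn _ (fx _) (mx _), mul_zero, sum_const_zero] at e'
  exact zero_ne_one e'

end Vale.Agent.P022D.L2b.B
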