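import Vale.Agent.P022D.CA.BlkDefs

/-!
# P022, block L2b (local ring at 2, hypersurface cases): definitions and statements
-/

set_option linter.all false

noncomputable section

namespace Vale.Agent.P022D.L2b

open IsLocalRing

/-- two by two matrices -/
abbrev M2 (A : Type) : Type := Matrix (Fin 2) (Fin 2) A

/-- the polar form of the determinant -/
def pd {A : Type} [CommRing A] (X Y : M2 A) : A :=
  X 0 0 * Y 1 1 + X 1 1 * Y 0 0 - X 0 1 * Y 1 0 - X 1 0 * Y 0 1

variable {G F : Type} [Group G] [TopologicalSpace G] [Field F]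

/-- `r + ε c` is a representation with the determinant of `r` -/
structure Z1 (r : G →* M2 F) (c : G → M2 F) : Prop where
  lc : IsLocallyConstant c
  mul : ∀ x y, c (x * y) = c x * r y + r x * c y
  det : ∀ x, pd (r x) (c x) = 0

/-- seven matrix entries determine a first order deformation -/
def Tn (r : G →* M2 F) (g : Fin 7 → G) (p q : Fin 7 → Fin 2) : Prop :=
  ∀ c, Z1 r c → (∀ i, c (g i) (p i) (q i) = 0) → ∀ x, c x = 0

/-- some scalar direction `r + ε a r` does not lift to `F[ε] / ε ^ 3` -/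
def NA (r : G →* M2 F) : Prop :=
  ∃ a : G → F, IsLocallyConstant a ∧ (∀ x y, a (x * y) = a x + a y) ∧
    ¬ ∃ z : G → M2 F, IsLocallyConstant z ∧
      (∀ x y, z (x * y) = z x * r y + r x * z y + (a x * a y) • r (x * y)) ∧
      ∀ x, pd (r x) (z x) + a x ^ 2 * (r x).det = 0

/-- some `r + ε t + ε' t'` does not lift to `F[ε, ε'] / (ε ^ 2, ε' ^ 2)` -/
def NB (r : G →* M2 F) : Prop :=
  ∃ t t' : G → M2 F, Z1 r t ∧ Z1 r t' ∧
    ¬ ∃ z : G → M2 F, IsLocallyConstant z ∧
      (∀ x y, z (x * y) = z x * r y + r x * z y + (t x * t' y + t' x * t y)) ∧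
      ∀ x, pd (r x) (z x) + pd (t x) (t' x) = 0

/-- the input of the shell -/
def Inp (r : G →* M2 F) : Prop := (∃ g p q, Tn r g p q) ∧ NA r ∧ NB r

variable {O : Type} [CommRing O] [IsLocalRing O]

/-- a lift of `r` with determinant `d`; `s` is a set theoretic section of `O → F` -/
structure Lift (r : G →* M2 F) (s : F → O) (d : G → O) {A : Type} [CommRing A] [Algebra O A]
    (ρ : G →* M2 A) : Prop where
  lc : IsLocallyConstant ρ
  nil : ∀ a ∈ maximalIdeal O, IsNilpotent (algebraMap O A a)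
  red : ∀ x i j, IsNilpotent (ρ x i j - algebraMap O A (s (r x i j)))
  det : ∀ x, (ρ x).det = algebraMap O A (d x)

/-- the coordinates of a lift -/
def co (r : G →* M2 F) (s : F → O) (g : Fin 7 → G) (p q : Fin 7 → Fin 2) {A : Type} [CommRing A]
    [Algebra O A] (ρ : G →* M2 A) (i : Fin 7) : A :=
  ρ (g i) (p i) (q i) - algebraMap O A (s (r (g i) (p i) (q i)))

/-- **output of the block**: seven coordinates, one equation -/
def Out [Algebra O F] (r : G →* M2 F) (s : F → O) (d : G → O) : Prop :=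
  ∃ (g : Fin 7 → G) (p q : Fin 7 → Fin 2) (f : MvPowerSeries (Fin 7) O),
    f ∈ maximalIdeal (MvPowerSeries (Fin 7) O) ∧
    CA.BlkPt (fun _ : Unit => MvPowerSeries.map (algebraMap O F) f) ∧ Tn r g p q ∧
    ∀ (A : Type) [CommRing A] [Algebra O A] [Finite A] (ρ : G →* M2 A), Lift r s d ρ →
      (∀ x i j, ρ x i j ∈ Algebra.adjoin O (Set.range (co r s g p q ρ))) ∧
      ∀ φ : MvPowerSeries (Fin 7) O →ₐ[O] A, (∀ i, φ (MvPowerSeries.X i) = co r s g p q ρ i) →
        φ f = 0

/-- row SHELL (`O` is any complete local ring with residue field `F`) -/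
def ShellS : Prop :=
  ∀ (G F O : Type) [Group G] [TopologicalSpace G] [Field F] [Finite F] [CharP F 2] [CommRing O]
    [IsLocalRing O] [IsNoetherianRing O] [IsAdicComplete (maximalIdeal O) O] [Algebra O F]
    (r : G →* M2 F) (s : F → O) (d : G → O), IsLocallyConstant r →
    (∀ x, algebraMap O F (s x) = x) → (∀ x, algebraMap O F (d x) = (r x).det) → Inp r → Out r s d

/-- row B: `r = diag (χ₁, χ₂)` with `χ₁ ≠ χ₂` on the group of `ℚ₂` -/
def CaseB : Prop :=
  ∀ (F : Type) [Field F] [Finite F] [CharP F 2]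
    (r : Gal(AlgebraicClosure ℚ_[2] / ℚ_[2]) →* M2 F), IsLocallyConstant r →
    (∀ x, r x 0 1 = 0 ∧ r x 1 0 = 0) → (∃ x, r x 0 0 ≠ r x 1 1) → Inp r

/-- row A: `r` is diagonal and not scalar on a subgroup of index two, antidiagonal outside -/
def CaseA : Prop :=
  ∀ (F : Type) [Field F] [Finite F] [CharP F 2]
    (r : Gal(AlgebraicClosure ℚ_[2] / ℚ_[2]) →* M2 F), IsLocallyConstant r →
    (∀ x, (r x 0 1 = 0 ∧ r x 1 0 = 0) ∨ (r x 0 0 = 0 ∧ r x 1 1 = 0)) → (∃ x, r x 0 0 = 0) →
    (∃ x, r x 0 1 = 0 ∧ r x 0 0 ≠ r x 1 1) → Inp r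

end Vale.Agent.P022D.L2b
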