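import Vale.Agent.P022D.L2b.Defs
import Vale.Agent.P022D.L2b.Ps

/-! P022, block L2b: the coordinates generate, and the equations of the lifts. -/

set_option linter.all false

noncomputable section

namespace Vale.Agent.P022D.L2b

open IsLocalRing MvPowerSeries

variable {G F O : Type} [Group G] [TopologicalSpace G] [Field F] [CommRing O] [IsLocalRing O]
  {r : G →* M2 F} {s : F → O} {d : G → O} {g : Fin 7 → G} {p q : Fin 7 → Fin 2}
  {A A' : Type} [CommRing A] [Algebra O A] [CommRing A'] [Algebra O A']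

/-- restriction of the coefficients to a subalgebra -/
def res (ρ : G →* M2 A) (B : Subalgebra O A) (h : ∀ x i j, ρ x i j ∈ B) : G →* M2 B where
  toFun x := Matrix.of fun i j => ⟨ρ x i j, h x i j⟩
  map_one' := by
    ext i j
    fin_cases i <;> fin_cases j <;> simp
  map_mul' x y := by
    ext i j
    simp [Matrix.mul_apply]

theorem nil_of_val {B : Subalgebra O A} {b : B} (h : IsNilpotent (b : A)) : IsNilpotent b := by
  obtain ⟨n, hn⟩ := h
  exact ⟨n, Subtype.ext (by simpa using hn)⟩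

theorem Lift.res {ρ : G →* M2 A} (h : Lift r s d ρ) (B : Subalgebra O A)
    (hB : ∀ x i j, ρ x i j ∈ B) : Lift r s d (res ρ B hB) where
  lc := IsLocallyConstant.desc _ (fun X : M2 B => X.map B.val) h.lc
    (Matrix.map_injective Subtype.val_injective)
  nil a ha := nil_of_val (h.nil a ha)
  red x i j := nil_of_val (h.red x i j)
  det x := Subtype.ext (by
    have := h.det x
    rw [Matrix.det_fin_two] at this ⊢
    exact this)

/-- change of coefficients -/
def mp (ψ : A →ₐ[O] A') (ρ : G →* M2 A) : G →* M2 A' :=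
  (ψ.toRingHom.mapMatrix : M2 A →+* M2 A').toMonoidHom.comp ρ

theorem mp_apply (ψ : A →ₐ[O] A') (ρ : G →* M2 A) (x : G) (i j : Fin 2) :
    mp ψ ρ x i j = ψ (ρ x i j) := rfl

theorem Lift.mp {ρ : G →* M2 A} (h : Lift r s d ρ) (ψ : A →ₐ[O] A') : Lift r s d (mp ψ ρ) where
  lc := h.lc.comp fun X : M2 A => X.map ψ
  nil a ha := by simpa using (h.nil a ha).map ψ
  red x i j := by simpa [mp_apply] using (h.red x i j).map ψ
  det x := by
    have := congrArg ψ (h.det x)
    rw [Matrix.det_fin_two] at this ⊢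
    simpa [mp_apply] using this

theorem co_mp (ψ : A →ₐ[O] A') (ρ : G →* M2 A) (i : Fin 7) :
    co r s g p q (mp ψ ρ) i = ψ (co r s g p q ρ i) := by
  simp only [co, map_sub, AlgHom.commutes]
  rfl

variable [Algebra O F]

theorem ker_eq (hs : ∀ x, algebraMap O F (s x) = x) :
    RingHom.ker (algebraMap O F) = maximalIdeal O :=
  eq_maximalIdeal (RingHom.ker_isMaximal_of_surjective _ fun x => ⟨s x, hs x⟩)

theorem gen0 [Finite A] (hr : IsLocallyConstant r) (hs : ∀ x, algebraMap O F (s x) = x)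
    (hd : ∀ x, algebraMap O F (d x) = (r x).det) (hT : Tn r g p q) {ρ : G →* M2 A}
    (h : Lift r s d ρ) (hA : ∀ B : Subalgebra O A, (∀ x i j, ρ x i j ∈ B) → ∀ a, a ∈ B) (a : A) :
    a ∈ Algebra.adjoin O (Set.range (co r s g p q ρ)) := by
  classical
  set N := nilradical A with hN
  set S : Set A := algebraMap O A '' (maximalIdeal O) ∪ Set.range (co r s g p q ρ) with hS
  have hJ : ∀ (R : Type) [CommRing R], nilradical R ≤ Ideal.jacobson ⊥ := fun R _ =>
    Ideal.radical_le_jacobson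
  have hSN : ∀ x ∈ S, IsNilpotent x := by
    rintro _ (⟨o, ho, rfl⟩ | ⟨i, rfl⟩)
    · exact h.nil o ho
    · exact h.red _ _ _
  have h1 : N ≤ Ideal.span S := by
    refine Submodule.le_of_le_smul_of_le_jacobson_bot (I := N) (IsNoetherian.noetherian _)
      (hJ A) ?_
    set I : Ideal A := Ideal.span S ⊔ N • N with hI
    let π := Ideal.Quotient.mkₐ O I
    have hk : RingHom.ker (algebraMap O F) ≤ RingHom.ker (algebraMap O (A ⧸ I)) := by
      rw [ker_eq hs]
      intro o ho
      exact Ideal.Quotient.eq_zero_iff_mem.2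
        (Ideal.mem_sup_left (Ideal.subset_span (Or.inl ⟨o, ho, rfl⟩)))
    let ι : F →+* A ⧸ I := (algebraMap O F).liftOfRightInverse s hs ⟨algebraMap O _, hk⟩
    have hι : ∀ o, ι (algebraMap O F o) = algebraMap O (A ⧸ I) o := fun o =>
      RingHom.liftOfRightInverse_comp_apply _ _ _ _ o
    have hι' : ∀ x, algebraMap O (A ⧸ I) (s x) = ι x := fun x => by rw [← hι, hs]
    letI : Algebra F (A ⧸ I) := ι.toAlgebra
    let u : G → M2 (A ⧸ I) := fun x => Matrix.of fun i j => π (ρ x i j) - ι (r x i j)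
    have hu : ∀ x i j, u x i j = π (ρ x i j - algebraMap O A (s (r x i j))) := fun x i j => by
      rw [map_sub, AlgHom.commutes, hι']; rfl
    have huu : ∀ x i j y k l, u x i j * u y k l = 0 := fun x i j y k l => by
      rw [hu, hu, ← map_mul]
      exact Ideal.Quotient.eq_zero_iff_mem.2 (Ideal.mem_sup_right
        (Submodule.smul_mem_smul (h.red _ _ _) (h.red _ _ _)))
    have hρ : ∀ x i j, π (ρ x i j) = ι (r x i j) + u x i j := fun x i j => by
      simp [u]
    have h0 : ∀ x i j, u x i j = 0 := by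
      intro x i j
      rw [← Module.forall_dual_apply_eq_zero_iff F]
      intro l
      have hl : ∀ (c : F) (v : A ⧸ I), l (ι c * v) = c * l v := fun c v => l.map_smul c v
      have hZ : Z1 r fun x => (u x).map l := by
        refine ⟨h.lc.comp₂ hr fun X Y => (Matrix.of fun i j => π (X i j) - ι (Y i j)).map l,
          fun x y => ?_, fun x => ?_⟩
        · ext i j
          have e : u (x * y) i j = ι (r y 0 j) * u x i 0 + ι (r y 1 j) * u x i 1 +
              (ι (r x i 0) * u y 0 j + ι (r x i 1) * u y 1 j) := by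
            have e1 := hρ (x * y) i j
            simp only [map_mul, Matrix.mul_apply, Fin.sum_univ_two, map_add, hρ] at e1
            linear_combination -e1 + huu x i 0 y 0 j + huu x i 1 y 1 j
          simp only [Matrix.map_apply, Matrix.add_apply, Matrix.mul_apply, Fin.sum_univ_two, e,
            map_add, hl]
          ring
        · have e1 := congrArg π (h.det x)
          rw [AlgHom.commutes, ← hι, hd] at e1
          simp only [Matrix.det_fin_two, map_sub, map_mul, hρ] at e1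
          have e : ι (r x 0 0) * u x 1 1 + ι (r x 1 1) * u x 0 0 - ι (r x 0 1) * u x 1 0 -
              ι (r x 1 0) * u x 0 1 = 0 := by
            linear_combination e1 - huu x 0 0 x 1 1 + huu x 0 1 x 1 0
          have e2 := congrArg l e
          simp only [map_sub, map_add, hl, map_zero] at e2
          exact e2
      have := hT _ hZ (fun i => by
        have : u (g i) (p i) (q i) = 0 := by
          rw [hu]
          exact Ideal.Quotient.eq_zero_iff_mem.2
            (Ideal.mem_sup_left (Ideal.subset_span (Or.inr ⟨i, rfl⟩)))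
        simp [this]) x
      exact congrFun (congrFun this i) j
    intro n hn
    obtain ⟨o, ho⟩ : π n ∈ (⊥ : Subalgebra O (A ⧸ I)) :=
      hA ((⊥ : Subalgebra O (A ⧸ I)).comap π) (fun x i j => by
        rw [Subalgebra.mem_comap, hρ, h0, add_zero, ← hι']
        exact Subalgebra.algebraMap_mem _ _) n
    have ho' : π n = ι (algebraMap O F o) := by rw [hι]; exact ho.symm
    apply Ideal.Quotient.eq_zero_iff_mem.1
    show π n = 0
    by_cases h2 : algebraMap O F o = 0
    · rw [ho', h2, map_zero]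
    · have h3 : IsNilpotent (π n) := IsNilpotent.map hn π
      have h4 : IsUnit (π n) := ho' ▸ (IsUnit.mk0 _ h2).map ι
      obtain ⟨k, hk⟩ := h3
      have h5 : Subsingleton (A ⧸ I) :=
        subsingleton_of_zero_eq_one (isUnit_zero_iff.1 (hk ▸ h4.pow k))
      exact Subsingleton.elim _ _
  set B := Algebra.adjoin O (Set.range (co r s g p q ρ)) with hB
  have hSB : ∀ x ∈ S, x ∈ B := by
    rintro _ (⟨o, ho, rfl⟩ | h)
    · exact B.algebraMap_mem o
    · exact Algebra.subset_adjoin h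
  have h2 : ∀ n ∈ Ideal.span S, ∀ a : A, a * n ∈ nilradical B • (⊤ : Submodule B A) := by
    intro n hn
    induction hn using Submodule.span_induction with
    | mem x hx =>
      intro a
      rw [mul_comm]
      exact Submodule.smul_mem_smul (r := (⟨x, hSB x hx⟩ : B)) (nil_of_val (hSN x hx))
        Submodule.mem_top
    | zero => intro a; simp
    | add x y _ _ hx hy => intro a; rw [mul_add]; exact Submodule.add_mem _ (hx a) (hy a)
    | smul c x _ hx => intro a; rw [smul_eq_mul, ← mul_assoc]; exact hx _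
  have h3 : (⊤ : Submodule B A) ≤ 1 := by
    refine Submodule.le_of_le_smul_of_le_jacobson_bot (I := nilradical B) Module.Finite.fg_top
      (hJ B) fun a _ => ?_
    obtain ⟨o, ho⟩ : Ideal.Quotient.mkₐ O N a ∈ (⊥ : Subalgebra O (A ⧸ N)) :=
      hA ((⊥ : Subalgebra O (A ⧸ N)).comap (Ideal.Quotient.mkₐ O N)) (fun x i j => by
        rw [Subalgebra.mem_comap]
        exact ⟨s (r x i j), (Ideal.Quotient.eq.2 (h.red x i j)).symm⟩) a
    have h4 : a - algebraMap O A o ∈ N := Ideal.Quotient.eq.1 ho.symm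
    have h5 := h2 _ (h1 h4) 1
    rw [one_mul] at h5
    rw [← add_sub_cancel (algebraMap O A o) a]
    exact Submodule.add_mem_sup (Submodule.mem_one.2 ⟨⟨_, B.algebraMap_mem o⟩, rfl⟩) h5
  obtain ⟨b, hb⟩ := Submodule.mem_one.1 (h3 (Submodule.mem_top (x := a)))
  exact hb ▸ b.2

theorem gen [Finite A] (hr : IsLocallyConstant r) (hs : ∀ x, algebraMap O F (s x) = x)
    (hd : ∀ x, algebraMap O F (d x) = (r x).det) (hT : Tn r g p q) {ρ : G →* M2 A}
    (h : Lift r s d ρ) (x : G) (i j : Fin 2) :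
    ρ x i j ∈ Algebra.adjoin O (Set.range (co r s g p q ρ)) := by
  let B := Algebra.adjoin O (Set.range fun t : G × Fin 2 × Fin 2 => ρ t.1 t.2.1 t.2.2)
  have hB : ∀ x i j, ρ x i j ∈ B := fun x i j => Algebra.subset_adjoin ⟨(x, i, j), rfl⟩
  have h1 := gen0 hr hs hd hT (h.res B hB) (fun C hC a => by
    have : B ≤ C.map B.val := Algebra.adjoin_le (by
      rintro _ ⟨t, rfl⟩
      exact ⟨_, hC _ _ _, rfl⟩)
    obtain ⟨c, hc, e⟩ := this a.2
    exact (Subtype.ext e : c = a) ▸ hc) ⟨_, hB x i j⟩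
  have h2 : Algebra.adjoin O (Set.range (co r s g p q (res ρ B hB))) ≤
      (Algebra.adjoin O (Set.range (co r s g p q ρ))).comap B.val := Algebra.adjoin_le (by
    rintro _ ⟨k, rfl⟩
    exact Algebra.subset_adjoin ⟨k, rfl⟩)
  exact h2 h1

/-- the kernels of the evaluations at finite lifts -/
def Fam (r : G →* M2 F) (s : F → O) (d : G → O) (g : Fin 7 → G) (p q : Fin 7 → Fin 2) :
    Set (Ideal (MvPowerSeries (Fin 7) O)) :=
  {I | ∃ (A : Type) (_ : CommRing A) (_ : Algebra O A) (_ : Finite A) (ρ : G →* M2 A)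
    (φ : MvPowerSeries (Fin 7) O →ₐ[O] A), Lift r s d ρ ∧ (∀ i, φ (X i) = co r s g p q ρ i) ∧
      I = RingHom.ker φ.toRingHom}

theorem pow_le_ker [Finite A] (hn : ∀ a ∈ maximalIdeal O, IsNilpotent (algebraMap O A a))
    (φ : MvPowerSeries (Fin 7) O →ₐ[O] A) (hφ : ∀ i, IsNilpotent (φ (X i))) :
    ∃ k, maximalIdeal (MvPowerSeries (Fin 7) O) ^ k ≤ RingHom.ker φ.toRingHom := by
  obtain ⟨k, hk⟩ := IsNoetherianRing.isNilpotent_nilradical A
  have h1 : maximalIdeal (MvPowerSeries (Fin 7) O) ≤ (nilradical A).comap φ.toRingHom := by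
    intro f hf
    obtain ⟨h, e⟩ := decomp f
    rw [mem_max_iff] at hf
    show φ f ∈ nilradical A
    rw [e, map_add, map_sum]
    refine Ideal.add_mem _ ?_ (Ideal.sum_mem _ fun i _ => ?_)
    · have : φ (C (constantCoeff f)) = algebraMap O A (constantCoeff f) := φ.commutes _
      rw [this]
      exact hn _ hf
    · rw [map_mul]
      exact Ideal.mul_mem_right _ _ (hφ i)
  refine ⟨k, (Ideal.pow_right_mono h1 k).trans ((Ideal.le_comap_pow _ _).trans ?_)⟩
  rw [hk]
  exact le_rfl

theorem lift_self (hr : IsLocallyConstant r) (hs : ∀ x, algebraMap O F (s x) = x)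
    (hd : ∀ x, algebraMap O F (d x) = (r x).det) : Lift r s d r where
  lc := hr
  nil a ha := by
    rw [← ker_eq hs] at ha
    rw [RingHom.mem_ker.1 ha]
    exact IsNilpotent.zero
  red x i j := by rw [hs, sub_self]; exact IsNilpotent.zero
  det x := (hd x).symm

theorem fam_ne [Finite F] (hr : IsLocallyConstant r) (hs : ∀ x, algebraMap O F (s x) = x)
    (hd : ∀ x, algebraMap O F (d x) = (r x).det) :
    ∃ I ∈ Fam r s d g p q, I ≤ maximalIdeal (MvPowerSeries (Fin 7) O) := by
  have h := lift_self hr hs hd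
  obtain ⟨φ, hφ⟩ := exists_ev (O := O) (co r s g p q r) fun i => h.red _ _ _
  exact ⟨_, ⟨F, _, _, ‹_›, r, φ, h, hφ, rfl⟩, le_maximalIdeal (RingHom.ker_ne_top _)⟩

/-- a pair of representations -/
def pr (ρ : G →* M2 A) (ρ' : G →* M2 A') : G →* M2 (A × A') where
  toFun x := Matrix.of fun i j => (ρ x i j, ρ' x i j)
  map_one' := by
    ext i j <;> fin_cases i <;> fin_cases j <;> simp
  map_mul' x y := by
    ext i j <;> simp [Matrix.mul_apply]

theorem nil_pr {a : A} {b : A'} (ha : IsNilpotent a) (hb : IsNilpotent b) :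
    IsNilpotent ((a, b) : A × A') := by
  obtain ⟨m, hm⟩ := ha
  obtain ⟨n, hn⟩ := hb
  exact ⟨m + n, Prod.ext (by simp [pow_add, hm]) (by simp [pow_add, hn])⟩

theorem fam_dir : ∀ I ∈ Fam r s d g p q, ∀ I' ∈ Fam r s d g p q,
    ∃ I'' ∈ Fam r s d g p q, I'' ≤ I ∧ I'' ≤ I' := by
  rintro _ ⟨A, _, _, _, ρ, φ, h, hφ, rfl⟩ _ ⟨A', _, _, _, ρ', φ', h', hφ', rfl⟩
  refine ⟨_, ⟨A × A', _, _, inferInstance, pr ρ ρ', φ.prod φ', ⟨?_, fun a ha => ?_,
    fun x i j => ?_, fun x => ?_⟩, fun i => ?_, rfl⟩, fun f hf => congrArg Prod.fst hf,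
    fun f hf => congrArg Prod.snd hf⟩
  · exact h.lc.comp₂ h'.lc fun X Y => Matrix.of fun i j => (X i j, Y i j)
  · exact nil_pr (h.nil a ha) (h'.nil a ha)
  · exact nil_pr (h.red x i j) (h'.red x i j)
  · have e := h.det x
    have e' := h'.det x
    rw [Matrix.det_fin_two] at e e' ⊢
    exact Prod.ext e e'
  · exact Prod.ext (hφ i) (hφ' i)

/-- a point which kills the equations comes from a lift -/
theorem lift_of [Finite F] [IsNoetherianRing O] [IsAdicComplete (maximalIdeal O) O] [Finite A]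
    (hr : IsLocallyConstant r) (hs : ∀ x, algebraMap O F (s x) = x)
    (hd : ∀ x, algebraMap O F (d x) = (r x).det) (hT : Tn r g p q)
    (hn : ∀ a ∈ maximalIdeal O, IsNilpotent (algebraMap O A a))
    (φ : MvPowerSeries (Fin 7) O →ₐ[O] A) (hφ : ∀ i, IsNilpotent (φ (X i)))
    (hJ : ∀ f ∈ sInf (Fam r s d g p q), φ f = 0) :
    ∃ ρ : G →* M2 A, Lift r s d ρ ∧ ∀ i, φ (X i) = co r s g p q ρ i := by
  have hc := isAdicCompleteV (σ := Fin 7) (V := O) ‹_›
  have hf : Finite (MvPowerSeries (Fin 7) O ⧸ maximalIdeal (MvPowerSeries (Fin 7) O)) := by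
    refine Finite.of_surjective (fun x : F => Ideal.Quotient.mk _ (C (s x))) fun y => ?_
    obtain ⟨f, rfl⟩ := Ideal.Quotient.mk_surjective y
    refine ⟨algebraMap O F (constantCoeff f), Ideal.Quotient.eq.2 ?_⟩
    rw [mem_max_iff, ← ker_eq hs, RingHom.mem_ker]
    simp [hs]
  obtain ⟨k, hk⟩ := pow_le_ker hn φ hφ
  obtain ⟨I0, hI0, -⟩ := fam_ne (g := g) (p := p) (q := q) hr hs hd
  obtain ⟨_, ⟨A', _, _, _, ρ, φ', h, hφ', rfl⟩, hle⟩ :=
    chevalley (maximalIdeal (MvPowerSeries (Fin 7) O))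
    (fun k => Ideal.finite_quotient_pow (IsNoetherian.noetherian _) k) (Fam r s d g p q)
    ⟨I0, hI0⟩ fam_dir (by
      rintro _ ⟨A', _, _, _, ρ, φ', h, hφ', rfl⟩
      exact pow_le_ker h.nil φ' fun i => hφ' i ▸ h.red _ _ _) k
  have h1 : RingHom.ker φ'.toRingHom ≤ RingHom.ker φ.toRingHom := hle.trans (sup_le hJ hk)
  have hB : ∀ x i j, ρ x i j ∈ φ'.range := fun x i j =>
    (Algebra.adjoin_le (by rintro _ ⟨i, rfl⟩; exact ⟨X i, hφ' i⟩) :
      Algebra.adjoin O _ ≤ φ'.range) (gen hr hs hd hT h x i j)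
  have h2 : RingHom.ker φ'.rangeRestrict.toRingHom ≤ RingHom.ker φ.toRingHom := fun f hf =>
    h1 (congrArg Subtype.val hf)
  let ψ := AlgHom.liftOfSurjective φ'.rangeRestrict φ'.rangeRestrict_surjective φ h2
  refine ⟨mp ψ (res ρ _ hB), (h.res _ hB).mp ψ, fun i => ?_⟩
  have e : co r s g p q (res ρ _ hB) i = φ'.rangeRestrict (X i) := Subtype.ext (hφ' i).symm
  rw [co_mp, e]
  exact (AlgHom.liftOfSurjective_apply _ _ _ _ _).symm

end Vale.Agent.P022D.L2b
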