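import Vale.Agent.P022D.L2b.Ps
import Vale.Agent.P022D.L2.Defs
import Vale.Agent.P022D.CA.BlkDefs

/-! P022, block L2b: singular points of a hypersurface whose quadratic part has rank three. -/

set_option linter.all false

noncomputable section

namespace Vale.Agent.P022D.L2b

open MvPowerSeries IsLocalRing
open Vale.Agent.P022D.L2 (Sq)

section Sqs

variable {K ι : Type} [Field K]

theorem sq_mem (u : ι → K) (x : K) : x ^ 2 ∈ Sq u := Subfield.subset_closure (Or.inl ⟨x, rfl⟩)

theorem u_mem (u : ι → K) (i : ι) : u i ∈ Sq u := Subfield.subset_closure (Or.inr ⟨i, rfl⟩)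

theorem sq_le {κ : Type} {u : ι → K} {v : κ → K} (h : ∀ i, u i ∈ Sq v) : Sq u ≤ Sq v := by
  refine Subfield.closure_le.2 ?_
  rintro _ (⟨x, rfl⟩ | ⟨i, rfl⟩)
  · exact sq_mem v x
  · exact h i

/-- a non trivial relation with square coefficients -/
theorem pdep [DecidableEq ι] (x : ι → K) (T : Finset ι) : ∀ c : Finset ι → K,
    ∑ S ∈ T.powerset, c S ^ 2 * ∏ i ∈ S, x i = 0 → (∃ S ⊆ T, c S ≠ 0) →
    ∃ i ∈ T, ∀ E : Subfield K, (∀ y : K, y ^ 2 ∈ E) → (∀ j ∈ T, j ≠ i → x j ∈ E) → x i ∈ E := by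
  induction T using Finset.induction_on with
  | empty =>
    rintro c h ⟨S, hS, hc⟩
    rw [Finset.subset_empty.1 hS] at hc
    simp at h
    exact absurd h hc
  | insert a T ha ih =>
    rintro c h ⟨S, hS, hc⟩
    rw [Finset.sum_powerset_insert ha] at h
    have h1 : ∑ t ∈ T.powerset, c (insert a t) ^ 2 * ∏ i ∈ insert a t, x i =
        x a * ∑ t ∈ T.powerset, c (insert a t) ^ 2 * ∏ i ∈ t, x i := by
      rw [Finset.mul_sum]
      refine Finset.sum_congr rfl fun t ht => ?_
      rw [Finset.prod_insert fun h => ha (Finset.mem_powerset.1 ht h)]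
      ring
    rw [h1] at h
    by_cases h2 : ∑ t ∈ T.powerset, c (insert a t) ^ 2 * ∏ i ∈ t, x i = 0
    · rw [h2, mul_zero, add_zero] at h
      have h3 : ∃ i ∈ T, ∀ E : Subfield K, (∀ y : K, y ^ 2 ∈ E) →
          (∀ j ∈ T, j ≠ i → x j ∈ E) → x i ∈ E := by
        by_cases h4 : a ∈ S
        · refine ih (fun t => c (insert a t)) h2 ⟨S.erase a, ?_, by rwa [Finset.insert_erase h4]⟩
          exact Finset.subset_insert_iff.1 hS
        · exact ih c h ⟨S, (Finset.subset_insert_iff_of_notMem h4).1 hS, hc⟩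
      obtain ⟨i, hi, h3⟩ := h3
      exact ⟨i, Finset.mem_insert_of_mem hi, fun E h5 h6 =>
        h3 E h5 fun j hj hji => h6 j (Finset.mem_insert_of_mem hj) hji⟩
    · refine ⟨a, Finset.mem_insert_self _ _, fun E h5 h6 => ?_⟩
      have h7 : ∀ c : Finset ι → K, ∑ t ∈ T.powerset, c t ^ 2 * ∏ i ∈ t, x i ∈ E := fun c =>
        E.sum_mem fun t ht => E.mul_mem (h5 _) (E.prod_mem fun i hi =>
          h6 i (Finset.mem_insert_of_mem (Finset.mem_powerset.1 ht hi))
            fun e => ha (e ▸ Finset.mem_powerset.1 ht hi))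
      have h8 : x a = -(∑ S ∈ T.powerset, c S ^ 2 * ∏ i ∈ S, x i) /
          ∑ t ∈ T.powerset, c (insert a t) ^ 2 * ∏ i ∈ t, x i := by
        rw [eq_div_iff h2]
        linear_combination h
      rw [h8]
      exact E.div_mem (E.neg_mem (h7 c)) (h7 fun t => c (insert a t))

end Sqs

variable {F : Type} [Field F] [CharP F 2] [PerfectRing F 2]

/-- a power series is a combination of square free monomials with square coefficients -/
theorem sq_decomp {ι : Type} [Fintype ι] [DecidableEq ι] (g : MvPowerSeries ι F) :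
    ∃ c : Finset ι → MvPowerSeries ι F,
      g = ∑ S ∈ (Finset.univ : Finset ι).powerset, c S ^ 2 * ∏ i ∈ S, X i := by
  let e : Finset ι → ι →₀ ℕ := fun S => Finsupp.equivFunOnFinite.symm fun i => if i ∈ S then 1 else 0
  have he : ∀ S i, e S i = if i ∈ S then 1 else 0 := fun S i => rfl
  have hm : ∀ S : Finset ι, ∏ i ∈ S, (X i : MvPowerSeries ι F) = monomial (e S) 1 := by
    intro S
    rw [MvPowerSeries.monomial_one_eq, Finsupp.prod_fintype _ _ (by simp)]
    simp only [he, pow_ite, pow_one, pow_zero]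
    rw [Finset.prod_ite_mem, Finset.univ_inter]
  let h : Finset ι → MvPowerSeries ι F := fun S m => coeff (2 • m + e S) g
  have hh : ∀ S m, coeff m (h S) = coeff (2 • m + e S) g := fun S m => rfl
  refine ⟨fun S => MvPowerSeries.map (frobeniusEquiv F 2).symm.toRingHom (h S), ?_⟩
  have h1 : ∀ S, (MvPowerSeries.map (frobeniusEquiv F 2).symm.toRingHom (h S)) ^ 2 =
      expand 2 two_ne_zero (h S) := by
    intro S
    rw [← map_frobenius_expand 2 two_ne_zero, map_expand]
    congr 1
    ext m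
    simp [coeff_map]
  ext d
  simp only [h1, hm, map_sum, coeff_mul_monomial, mul_one]
  rw [Finset.sum_eq_single (Finset.univ.filter fun i => d i % 2 = 1)]
  · have h2 : e (Finset.univ.filter fun i => d i % 2 = 1) ≤ d := fun i => by
      rw [he]
      split_ifs with h3
      · have := (Finset.mem_filter.1 h3).2
        omega
      · omega
    have h3 : d - e (Finset.univ.filter fun i => d i % 2 = 1) =
        2 • Finsupp.equivFunOnFinite.symm fun i => d i / 2 := by
      ext i
      rw [Finsupp.tsub_apply, he, Finsupp.smul_apply, Finsupp.equivFunOnFinite_symm_apply_apply]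
      simp only [Finset.mem_filter, Finset.mem_univ, true_and, smul_eq_mul]
      split_ifs <;> omega
    rw [if_pos h2, h3, coeff_expand_smul, hh, ← h3, tsub_add_cancel_of_le h2]
  · intro S _ hS
    split_ifs with h2
    · obtain ⟨i, hi⟩ : ∃ i, ¬ (i ∈ S ↔ d i % 2 = 1) := by
        by_contra h3
        push Not at h3
        exact hS (by ext i; simp [h3 i])
      refine coeff_expand_of_not_dvd 2 two_ne_zero _ (i := i) ?_
      have h4 := h2 i
      rw [Finsupp.tsub_apply]
      rw [he] at h4 ⊢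
      by_cases h5 : i ∈ S
      · rw [if_pos h5] at h4 ⊢
        have : ¬ d i % 2 = 1 := fun h => hi ⟨fun _ => h, fun _ => h5⟩
        omega
      · rw [if_neg h5]
        have : d i % 2 = 1 := by
          by_contra h
          exact hi ⟨fun h' => absurd h' h5, fun h' => absurd h' h⟩
        omega
    · rfl
  · intro h
    exact absurd (Finset.mem_powerset.2 (Finset.subset_univ _)) h

theorem prec_prod {R : Type*} [CommRing R] (I : Ideal R) [IsPrecomplete I R] :
    IsPrecomplete I (R × R) := by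
  refine ⟨fun s hs => ?_⟩
  have h1 : ∀ (l : R × R →ₗ[R] R), ∃ L, ∀ n, l (s n) - L ∈ I ^ n := by
    intro l
    obtain ⟨L, hL⟩ := IsPrecomplete.prec' (I := I) (fun k => l (s k)) (fun {k n} hkn => by
      have := Submodule.mem_map_of_mem (f := l) (SModEq.sub_mem.1 (hs hkn))
      rw [Submodule.map_smul'', map_sub] at this
      exact SModEq.sub_mem.2 (Submodule.smul_mono le_rfl le_top this))
    refine ⟨L, fun n => ?_⟩
    have := hL n
    rwa [SModEq.sub_mem, smul_eq_mul, Ideal.mul_top] at this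
  obtain ⟨a, ha⟩ := h1 (LinearMap.fst R R R)
  obtain ⟨b, hb⟩ := h1 (LinearMap.snd R R R)
  refine ⟨(a, b), fun n => SModEq.sub_mem.2 ?_⟩
  have : s n - (a, b) = ((s n).1 - a) • ((1, 0) : R × R) + ((s n).2 - b) • ((0, 1) : R × R) := by
    ext <;> simp
  rw [this]
  exact Submodule.add_mem _ (Submodule.smul_mem_smul (ha n) trivial)
    (Submodule.smul_mem_smul (hb n) trivial)

section Lin

variable {σ : Type} [Fintype σ]

/-- a linear form -/
def lin (w : σ → F) : MvPowerSeries σ F := ∑ j, C (w j) * X j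

theorem lin_add (w w' : σ → F) : lin (w + w') = lin w + lin w' := by
  simp [lin, add_mul, Finset.sum_add_distrib]

theorem lin_smul (a : F) (w : σ → F) : lin (a • w) = C a * lin w := by
  simp [lin, Finset.mul_sum, mul_assoc]

theorem lin_sum {ι : Type} (s : Finset ι) (w : ι → σ → F) :
    lin (∑ i ∈ s, w i) = ∑ i ∈ s, lin (w i) := by
  simp only [lin, Finset.sum_apply, map_sum, Finset.sum_mul]
  exact Finset.sum_comm

theorem lin_single [DecidableEq σ] (j : σ) : lin (Pi.single j (1 : F)) = X j := by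
  rw [lin, Finset.sum_eq_single j (fun i _ hi => by simp [hi]) (by simp)]
  simp

theorem X_mem (j : σ) : (X j : MvPowerSeries σ F) ∈ maximalIdeal (MvPowerSeries σ F) := by
  rw [mem_max_iff, constantCoeff_X]
  exact Ideal.zero_mem _

theorem cc_lin (w : σ → F) : constantCoeff (lin w) = 0 := by simp [lin]

theorem sub_cc_mem (g : MvPowerSeries σ F) :
    g - C (constantCoeff g) ∈ maximalIdeal (MvPowerSeries σ F) := by
  rw [mem_max_iff]
  simp

/-- the polar form applied to `v` -/
def pol (c : σ → σ → F) (v : σ → F) : σ → F := fun j => ∑ i, (c i j + c j i) * v i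

/-- the derivative in the direction `v` of a series of order two -/
theorem der_sub (f : σ → σ → MvPowerSeries σ F) (v : σ → F) :
    (∑ k, C (v k) * pderiv F k (∑ i, ∑ j, X i * X j * f i j)) -
      lin (pol (fun i j => constantCoeff (f i j)) v) ∈ maximalIdeal (MvPowerSeries σ F) ^ 2 := by
  classical
  have h1 : ∀ i j, ∑ k, C (v k) * pderiv F k (X i * X j * f i j) =
      X i * X j * (∑ k, C (v k) * pderiv F k (f i j)) +
        f i j * (C (v j) * X i + C (v i) * X j) := by
    intro i j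
    simp only [Derivation.leibniz, smul_eq_mul, pderiv_X, Pi.single_apply, mul_add, mul_ite,
      mul_one, mul_zero, Finset.sum_add_distrib, Finset.mul_sum, Finset.sum_ite_eq,
      Finset.mem_univ, if_true]
    congr 1
    · exact Finset.sum_congr rfl fun k _ => by ring
    · ring
  have h2 : lin (pol (fun i j => constantCoeff (f i j)) v) =
      ∑ i, ∑ j, C (constantCoeff (f i j)) * (C (v j) * X i + C (v i) * X j) := by
    simp only [lin, pol, map_sum, Finset.sum_mul, add_mul, map_add, map_mul, mul_add,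
      Finset.sum_add_distrib, mul_assoc]
    rw [add_comm]
    congr 1
    exact Finset.sum_comm
  simp only [map_sum, Finset.mul_sum]
  rw [Finset.sum_comm, h2, ← Finset.sum_sub_distrib]
  refine Ideal.sum_mem _ fun i _ => ?_
  rw [Finset.sum_comm, ← Finset.sum_sub_distrib]
  refine Ideal.sum_mem _ fun j _ => ?_
  rw [h1, add_sub_assoc, ← sub_mul, pow_two]
  refine Ideal.add_mem _ (Ideal.mul_mem_right _ _ (Ideal.mul_mem_mul (X_mem i) (X_mem j)))
    (Ideal.mul_mem_mul (sub_cc_mem _) ?_)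
  exact Ideal.add_mem _ (Ideal.mul_mem_left _ _ (X_mem i)) (Ideal.mul_mem_left _ _ (X_mem j))

end Lin

theorem pol_symm {σ : Type} [Fintype σ] (c : σ → σ → F) (v w : σ → F) :
    pol c v ⬝ᵥ w = pol c w ⬝ᵥ v := by
  simp only [pol, dotProduct, Finset.sum_mul]
  rw [Finset.sum_comm]
  exact Finset.sum_congr rfl fun i _ => Finset.sum_congr rfl fun j _ => by ring

theorem pol_self {σ : Type} [Fintype σ] (c : σ → σ → F) (v : σ → F) : pol c v ⬝ᵥ v = 0 := by
  simp only [pol, dotProduct, Finset.sum_mul, add_mul, Finset.sum_add_distrib]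
  rw [Finset.sum_comm, ← Finset.sum_add_distrib]
  refine Finset.sum_eq_zero fun i _ => ?_
  rw [← Finset.sum_add_distrib]
  refine Finset.sum_eq_zero fun j _ => ?_
  rw [mul_right_comm (c i j)]
  exact CharTwo.add_self_eq_zero _

theorem forms (α τ τ' p p' : Fin 7 → F) (hα : α ≠ 0) (h1 : p ⬝ᵥ τ' ≠ 0) (h2 : p ⬝ᵥ τ = 0)
    (h3 : p ⬝ᵥ α = 0) (h4 : p' ⬝ᵥ τ ≠ 0) (h5 : p' ⬝ᵥ τ' = 0) (h6 : p' ⬝ᵥ α = 0) :
    ∃ (l : Fin 4 → Fin 7 → F) (y : Fin 7 → F), ∀ j, ∃ (c : Fin 4 → F) (a b : F),
      Pi.single j 1 = α j • y + (∑ i, c i • l i + (a • p + b • p')) := by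
  obtain ⟨j0, hj0⟩ := Function.ne_iff.1 hα
  have hy : (Pi.single j0 (α j0)⁻¹ : Fin 7 → F) ⬝ᵥ α = 1 := by
    rw [single_dotProduct, inv_mul_cancel₀ hj0]
  set y : Fin 7 → F := Pi.single j0 (α j0)⁻¹
  let L : (Fin 7 → F) →ₗ[F] (Fin 3 → F) := (Matrix.of ![α, τ, τ']).mulVecLin
  have hL : ∀ w, L w = ![w ⬝ᵥ α, w ⬝ᵥ τ, w ⬝ᵥ τ'] := fun w => by
    ext i
    fin_cases i <;> simp [L, Matrix.mulVec, dotProduct_comm]
  have key : ∀ w : Fin 7 → F, L (w - ((w ⬝ᵥ α) • y + ((((w - (w ⬝ᵥ α) • y) ⬝ᵥ τ') / (p ⬝ᵥ τ')) • p +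
      (((w - (w ⬝ᵥ α) • y) ⬝ᵥ τ) / (p' ⬝ᵥ τ)) • p'))) = 0 := by
    intro w
    rw [hL]
    ext i
    fin_cases i <;>
      simp [sub_dotProduct, add_dotProduct, smul_dotProduct, hy, h2, h3, h5, h6, h1, h4]
  have hs : LinearMap.range L = ⊤ := by
    rw [eq_top_iff]
    intro v _
    refine ⟨v 0 • y + (((v 2 - v 0 * y ⬝ᵥ τ') / (p ⬝ᵥ τ')) • p +
      ((v 1 - v 0 * y ⬝ᵥ τ) / (p' ⬝ᵥ τ)) • p'), ?_⟩
    rw [hL]
    ext i
    fin_cases i <;>
      simp [add_dotProduct, smul_dotProduct, hy, h2, h3, h5, h6, h1, h4]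
  have hr := LinearMap.finrank_range_add_finrank_ker L
  rw [hs, finrank_top, Module.finrank_fin_fun, Module.finrank_fin_fun] at hr
  let bs := Module.finBasisOfFinrankEq F (LinearMap.ker L) (n := 4) (by omega)
  refine ⟨fun i => (bs i).1, y, fun j => ?_⟩
  have h7 := congrArg Subtype.val (bs.sum_repr ⟨_, key (Pi.single j 1)⟩)
  simp only [Submodule.coe_sum, Submodule.coe_smul] at h7
  rw [eq_sub_iff_add_eq, add_left_comm] at h7
  have h8 : ∃ (c : Fin 4 → F) (a b : F), Pi.single j 1 =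
      ((Pi.single j 1 : Fin 7 → F) ⬝ᵥ α) • y + (∑ i, c i • (bs i).1 + (a • p + b • p')) :=
    ⟨_, _, _, h7.symm⟩
  rwa [single_dotProduct, one_mul] at h8

/-- **singular points**: the coordinates lie in a field generated by squares and four elements -/
theorem sing (f : Fin 7 → Fin 7 → MvPowerSeries (Fin 7) F) (α τ τ' : Fin 7 → F)
    (hq : ∑ i, ∑ j, constantCoeff (f i j) * α i * α j ≠ 0)
    (h1 : pol (fun i j => constantCoeff (f i j)) τ ⬝ᵥ τ' ≠ 0)
    (h2 : pol (fun i j => constantCoeff (f i j)) τ ⬝ᵥ α = 0)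
    (h3 : pol (fun i j => constantCoeff (f i j)) τ' ⬝ᵥ α = 0)
    {K : Type} [Field K] (ψ : MvPowerSeries (Fin 7) F →+* K)
    (h0 : ψ (∑ i, ∑ j, X i * X j * f i j) = 0)
    (hd : ∀ k, ψ (pderiv F k (∑ i, ∑ j, X i * X j * f i j)) = 0) :
    ∃ u : Fin 4 → K, ∀ j, ψ (X j) ∈ Sq u := by
  classical
  set c : Fin 7 → Fin 7 → F := fun i j => constantCoeff (f i j) with hc
  have hα : α ≠ 0 := by
    rintro rfl
    simp at hq
  obtain ⟨l, y, hl⟩ := forms α τ τ' (pol c τ) (pol c τ') hα h1 (pol_self _ _) h2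
    (by rwa [pol_symm]) (pol_self _ _) h3
  let P := MvPowerSeries (Fin 7) F
  let m := maximalIdeal P
  let I : Ideal P := Ideal.span (Set.range fun i => lin (l i)) ⊔ RingHom.ker ψ
  have hlm : ∀ w : Fin 7 → F, lin w ∈ m := fun w => by
    rw [mem_max_iff, cc_lin]
    exact Ideal.zero_mem _
  have hpol : ∀ v, lin (pol c v) ∈ I ⊔ m ^ 2 := fun v => by
    have a1 : (∑ k, C (v k) * pderiv F k (∑ i, ∑ j, X i * X j * f i j)) ∈ RingHom.ker ψ := by
      simp only [RingHom.mem_ker, map_sum ψ, map_mul ψ, hd, mul_zero, Finset.sum_const_zero]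
    have a2 := Ideal.sub_mem _ (Ideal.mem_sup_left (T := m ^ 2) (Ideal.mem_sup_right
      (S := Ideal.span (Set.range fun i => lin (l i))) a1)) (Ideal.mem_sup_right (der_sub f v))
    rwa [sub_sub_cancel] at a2
  have hX : ∀ j, X j - C (α j) * lin y ∈ I ⊔ m ^ 2 := fun j => by
    obtain ⟨cc, a, b, e⟩ := hl j
    rw [← lin_single, e, lin_add, lin_smul, add_sub_cancel_left, lin_add, lin_add, lin_sum,
      lin_smul, lin_smul]
    refine Ideal.add_mem _ (Ideal.sum_mem _ fun i _ => ?_)
      (Ideal.add_mem _ (Ideal.mul_mem_left _ _ (hpol _)) (Ideal.mul_mem_left _ _ (hpol _)))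
    rw [lin_smul]
    exact Ideal.mul_mem_left _ _ (Ideal.mem_sup_left (Ideal.mem_sup_left
      (Ideal.subset_span ⟨i, rfl⟩)))
  have hm : m ≤ Ideal.span {lin y} ⊔ I := by
    refine Submodule.le_of_le_smul_of_le_jacobson_bot (I := m) (IsNoetherian.noetherian _)
      (maximalIdeal_le_jacobson _) fun g hg => ?_
    obtain ⟨e, he⟩ := decomp g
    have a1 : constantCoeff g = 0 := by simpa using (mem_max_iff g).1 hg
    rw [he, a1, map_zero, zero_add, smul_eq_mul, ← pow_two, sup_assoc]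
    refine Ideal.sum_mem _ fun j _ => Ideal.mul_mem_right _ _ ?_
    have a2 := Ideal.add_mem _ (Ideal.mem_sup_left (T := I ⊔ m ^ 2)
      (Ideal.mul_mem_left _ (C (α j)) (Ideal.mem_span_singleton_self (lin y))))
      (Ideal.mem_sup_right (hX j))
    rwa [add_sub_cancel] at a2
  have hm1 : ∀ g ∈ m, ∃ s, g - s * lin y ∈ I := fun g hg => by
    obtain ⟨a, ha, b, hb, e⟩ := Submodule.mem_sup.1 (hm hg)
    obtain ⟨s, rfl⟩ := Ideal.mem_span_singleton'.1 ha
    exact ⟨s, by rw [← e]; simpa using hb⟩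
  have hX2 : ∀ j, ∃ s ∈ m, X j - lin y * (C (α j) + s) ∈ I := fun j => by
    obtain ⟨a, ha, b, hb, e⟩ := Submodule.mem_sup.1 (hX j)
    have a1 : ∃ s ∈ m, b - lin y * s ∈ I := by
      rw [pow_two] at hb
      refine Submodule.mul_induction_on hb (fun u hu v hv => ?_) ?_
      · obtain ⟨s, hs⟩ := hm1 u hu
        refine ⟨s * v, Ideal.mul_mem_left _ _ hv, ?_⟩
        have := Ideal.mul_mem_right v _ hs
        rwa [show (u - s * lin y) * v = u * v - lin y * (s * v) by ring] at this
      · rintro u v ⟨s, hs, h⟩ ⟨t, ht, h'⟩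
        refine ⟨s + t, Ideal.add_mem _ hs ht, ?_⟩
        have := Ideal.add_mem _ h h'
        rwa [show u - lin y * s + (v - lin y * t) = u + v - lin y * (s + t) by ring] at this
    obtain ⟨s, hs, h⟩ := a1
    refine ⟨s, hs, ?_⟩
    have := Ideal.add_mem _ ha h
    rwa [show a + (b - lin y * s) = X j - lin y * (C (α j) + s) by linear_combination e] at this
  choose s hs hs' using hX2
  have hy2 : lin y ^ 2 ∈ I := by
    have a1 : IsUnit (∑ i, ∑ j, (C (α i) + s i) * (C (α j) + s j) * f i j) := by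
      have a0 : ∀ i, constantCoeff (s i) = 0 := fun i => by simpa using (mem_max_iff _).1 (hs i)
      rw [MvPowerSeries.isUnit_iff_constantCoeff, isUnit_iff_ne_zero]
      simp only [map_sum, map_mul, map_add, a0, constantCoeff_C, add_zero]
      rwa [Finset.sum_congr rfl fun i _ => Finset.sum_congr rfl fun j _ =>
        (show α i * α j * constantCoeff (f i j) = constantCoeff (f i j) * α i * α j by ring)]
    rw [← Ideal.mul_unit_mem_iff_mem _ a1, ← Ideal.Quotient.eq_zero_iff_mem]
    have a2 : Ideal.Quotient.mk I (∑ i, ∑ j, X i * X j * f i j) = 0 :=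
      Ideal.Quotient.eq_zero_iff_mem.2 (Ideal.mem_sup_right h0)
    have a3 : ∀ j, Ideal.Quotient.mk I (X j) = Ideal.Quotient.mk I (lin y * (C (α j) + s j)) :=
      fun j => Ideal.Quotient.eq.2 (hs' j)
    rw [← a2]
    simp only [map_sum, map_mul, a3, Finset.mul_sum, map_pow]
    exact Finset.sum_congr rfl fun i _ => Finset.sum_congr rfl fun j _ => by ring
  have hall : ∀ g : P, ∃ a b : F, g - (C a + C b * lin y) ∈ I := fun g => by
    obtain ⟨t, ht⟩ := hm1 _ (sub_cc_mem g)
    obtain ⟨t', ht'⟩ := hm1 _ (sub_cc_mem t)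
    refine ⟨constantCoeff g, constantCoeff t, ?_⟩
    have := Ideal.add_mem _ (Ideal.add_mem _ ht (Ideal.mul_mem_right (lin y) _ ht'))
      (Ideal.mul_mem_left _ t' hy2)
    rwa [show g - C (constantCoeff g) - t * lin y + (t - C (constantCoeff t) - t' * lin y) * lin y +
      t' * lin y ^ 2 = g - (C (constantCoeff g) + C (constantCoeff t) * lin y) by ring] at this
  have hsub : HasSubst fun i => lin (l i) := hasSubst_of_constantCoeff_zero fun i => cc_lin _
  let P0 := MvPowerSeries (Fin 4) F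
  let θ : P0 →ₐ[F] P := substAlgHom hsub
  have hθ : ∀ i, θ (X i) = lin (l i) := fun i => substAlgHom_X hsub i
  have hθC : ∀ a : F, θ (C a) = C a := fun a => θ.commutes a
  have hsurj : ∀ g : P, ∃ a b : P0, ψ g = ψ (θ a) + ψ (θ b) * ψ (lin y) := by
    let B := P ⧸ RingHom.ker ψ
    let mk := Ideal.Quotient.mk (RingHom.ker ψ)
    letI : Algebra P0 B := (mk.comp θ.toRingHom).toAlgebra
    let I0 : Ideal P0 := Ideal.span (Set.range X)
    have := prec_prod I0
    have hnt : Nontrivial B := Ideal.Quotient.nontrivial_iff.2 (RingHom.ker_ne_top ψ)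
    have hloc : IsLocalRing B := IsLocalRing.of_surjective' mk Ideal.Quotient.mk_surjective
    have hmap : I0.map (algebraMap P0 B) = I.map mk := by
      have : (RingHom.ker ψ).map mk = ⊥ := Ideal.map_quotient_self _
      rw [Ideal.map_sup, this, sup_bot_eq, Ideal.map_span, Ideal.map_span, ← Set.range_comp,
        ← Set.range_comp]
      congr 2
      funext i
      exact congrArg mk (hθ i)
    have hI : I ≤ m := sup_le (Ideal.span_le.2 (by rintro _ ⟨i, rfl⟩; exact hlm _))
      (le_maximalIdeal (RingHom.ker_ne_top ψ))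
    have hH : IsHausdorff I0 B := by
      refine (IsHausdorff.map_algebraMap_iff (S := B)).1 (IsHausdorff.of_isLocalRing _ _ ?_)
      rw [hmap]
      intro e
      have a1 := congrArg (Ideal.comap mk) e
      rw [Ideal.comap_map_of_surjective _ Ideal.Quotient.mk_surjective, Ideal.comap_top,
        ← RingHom.ker_eq_comap_bot, Ideal.mk_ker, sup_eq_left.2 le_sup_right] at a1
      exact (maximalIdeal.isMaximal P).ne_top (top_le_iff.1 (a1 ▸ hI))
    let L : P0 × P0 →ₗ[P0] B :=
      (LinearMap.toSpanSingleton P0 B 1).coprod (LinearMap.toSpanSingleton P0 B (mk (lin y)))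
    have hL : ∀ a b, L (a, b) = mk (θ a + θ b * lin y) := fun a b => by
      show a • (1 : B) + b • mk (lin y) = _
      rw [Algebra.smul_def, Algebra.smul_def, mul_one, map_add, map_mul]
      rfl
    have hs : Function.Surjective L := by
      refine surjective_of_mkQ_comp_surjective (I := I0) fun z => ?_
      obtain ⟨z, rfl⟩ := Submodule.mkQ_surjective _ z
      obtain ⟨g, rfl⟩ := Ideal.Quotient.mk_surjective z
      obtain ⟨a, b, h⟩ := hall g
      refine ⟨(C a, C b), ?_⟩
      rw [LinearMap.comp_apply, hL, hθC, hθC, Submodule.mkQ_apply, Submodule.mkQ_apply, eq_comm,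
        Submodule.Quotient.eq, Ideal.smul_top_eq_map, Submodule.restrictScalars_mem, hmap]
      exact map_sub mk _ _ ▸ Ideal.mem_map_of_mem mk h
    intro g
    obtain ⟨⟨a, b⟩, h⟩ := hs (mk g)
    rw [hL] at h
    have := Ideal.Quotient.eq.1 h
    rw [RingHom.mem_ker, map_sub, sub_eq_zero, map_add, map_mul] at this
    exact ⟨a, b, this.symm⟩
  let x : Fin 4 → K := fun i => ψ (lin (l i))
  have hdec : ∀ a : P0, ∃ cS : Finset (Fin 4) → P0, ψ (θ a) =
      ∑ S ∈ (Finset.univ : Finset (Fin 4)).powerset, ψ (θ (cS S)) ^ 2 * ∏ i ∈ S, x i := fun a => by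
    obtain ⟨cS, h⟩ := sq_decomp a
    refine ⟨cS, ?_⟩
    conv_lhs => rw [h]
    simp only [map_sum, map_mul, map_pow, map_prod, hθ, x]
  have hE : ∀ {κ : Type} (u : κ → K), (∀ i, x i ∈ Sq u) → ∀ a, ψ (θ a) ∈ Sq u := fun u hu a => by
    obtain ⟨cS, h⟩ := hdec a
    rw [h]
    exact Subfield.sum_mem _ fun S _ => Subfield.mul_mem _ (sq_mem _ _)
      (Subfield.prod_mem _ fun i _ => hu i)
  suffices h : ∃ u : Fin 4 → K, (∀ i, x i ∈ Sq u) ∧ ψ (lin y) ∈ Sq u by
    obtain ⟨u, h4, h5⟩ := h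
    refine ⟨u, fun j => ?_⟩
    obtain ⟨a, b, h⟩ := hsurj (X j)
    rw [h]
    exact Subfield.add_mem _ (hE u h4 a) (Subfield.mul_mem _ (hE u h4 b) h5)
  have hK : CharP K 2 := by
    refine CharTwo.of_one_ne_zero_of_two_eq_zero one_ne_zero ?_
    have a1 : (2 : P) = C (2 : F) := (map_ofNat C 2).symm
    rw [← map_ofNat ψ 2, a1, CharTwo.two_eq_zero, map_zero, map_zero]
  obtain ⟨a, b, hab⟩ := hsurj (lin y ^ 2)
  rw [map_pow] at hab
  by_cases hb : ψ (θ b) = 0
  · obtain ⟨cS, h⟩ := hdec a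
    by_cases hy : ψ (lin y) = ψ (θ (cS ∅))
    · exact ⟨x, u_mem x, hy ▸ hE x (u_mem x) _⟩
    obtain ⟨i, -, hi⟩ := pdep x Finset.univ
      (fun S => ψ (θ (cS S)) + if S = ∅ then ψ (lin y) else 0) (by
        simp only [CharTwo.add_sq, add_mul, Finset.sum_add_distrib, ← h, ite_pow, ite_mul]
        rw [Finset.sum_eq_single ∅ (fun S _ hS => by simp [hS]) (by simp), if_pos rfl,
          Finset.prod_empty, mul_one, hab, hb, zero_mul, add_zero]
        exact CharTwo.add_self_eq_zero _)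
      ⟨∅, Finset.empty_subset _, by
        rw [if_pos rfl]
        exact fun e => hy (CharTwo.add_eq_zero.1 e).symm⟩
    have a1 : ∀ j, j ≠ i → x j ∈ Sq (Function.update x i (ψ (lin y))) := fun j hj => by
      have := u_mem (Function.update x i (ψ (lin y))) j
      rwa [Function.update_of_ne hj] at this
    refine ⟨Function.update x i (ψ (lin y)), fun j => ?_, ?_⟩
    · by_cases hj : j = i
      · exact hj ▸ hi _ (sq_mem _) fun j _ hj => a1 j hj
      · exact a1 j hj
    · have := u_mem (Function.update x i (ψ (lin y))) i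
      rwa [Function.update_self] at this
  · refine ⟨x, u_mem x, ?_⟩
    have a1 : ψ (lin y) = (ψ (lin y) ^ 2 - ψ (θ a)) / ψ (θ b) := by
      rw [eq_div_iff hb]
      linear_combination -hab
    rw [a1]
    exact Subfield.div_mem _ (Subfield.sub_mem _ (sq_mem _ _) (hE x (u_mem x) a))
      (hE x (u_mem x) b)

theorem der_sq {K ι : Type} [Field K] [CharP K 2] (u : ι → K) (D : Derivation ℤ K K)
    (hD : ∀ i, D (u i) = 0) {y : K} (hy : y ∈ Sq u) : D y = 0 := by
  refine Subfield.closure_induction (p := fun y _ => D y = 0) ?_ ?_ ?_ ?_ ?_ ?_ hy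
  · rintro z (⟨w, rfl⟩ | ⟨i, rfl⟩)
    · simp only [Derivation.leibniz_pow, nsmul_eq_mul, CharP.cast_eq_zero, zero_mul]
    · exact hD i
  · exact D.map_one_eq_zero
  · intro a b _ _ ha hb
    rw [map_add, ha, hb, add_zero]
  · intro a _ ha
    rw [map_neg, ha, neg_zero]
  · intro a _ ha
    rw [Derivation.leibniz_inv, ha, smul_zero]
  · intro a b _ _ ha hb
    rw [Derivation.leibniz, ha, hb, smul_zero, smul_zero, add_zero]

/-- the block dichotomy from the statement on singular points -/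
theorem blk_of (f : MvPowerSeries (Fin 7) F)
    (h : ∀ (K : Type) [Field K] (ψ : MvPowerSeries (Fin 7) F →+* K), ψ f = 0 →
      (∀ k, ψ (pderiv F k f) = 0) → ∃ u : Fin 4 → K, ∀ j, ψ (X j) ∈ Sq u) :
    CA.BlkPt (fun _ : Unit => f) := by
  classical
  intro B _ _ _ _ _ φ _ _ _ hf K _ _ _
  by_cases h1 : ∀ k, algebraMap B K (φ (pderiv F k f)) = 0
  · right
    obtain ⟨u, hu⟩ := h K ((algebraMap B K).comp φ) (by simp [hf ()]) h1
    have hK : CharP K 2 := by
      refine CharTwo.of_one_ne_zero_of_two_eq_zero one_ne_zero ?_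
      have a1 : (2 : MvPowerSeries (Fin 7) F) = C (2 : F) := (map_ofNat C 2).symm
      rw [← map_ofNat ((algebraMap B K).comp φ) 2, a1, CharTwo.two_eq_zero, map_zero, map_zero]
    refine ⟨Finset.univ.image u, ?_, fun D hD t => der_sq u D (fun i => hD _ (by simp)) (hu t)⟩
    have := Finset.card_image_le (s := Finset.univ) (f := u)
    simp at this ⊢
    omega
  · left
    obtain ⟨k, hk⟩ := not_forall.1 h1
    intro l hl i
    have := hl k
    rw [Fintype.sum_unique] at this
    exact (mul_eq_zero.1 this).resolve_right hk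

end Vale.Agent.P022D.L2b
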