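import Vale.Agent.P022D.L2b.Gen
import Vale.Agent.P022D.L2b.Hyp

/-! P022, block L2b: the shell. -/

set_option linter.all false

noncomputable section

namespace Vale.Agent.P022D.L2b

open IsLocalRing MvPowerSeries

/-- the ring `F ⊕ F e₁ ⊕ F e₂ ⊕ F w` with `e₁² = κ w`, `e₁ e₂ = w`, `e₂² = 0` -/
structure T4 {F : Type} (κ : F) where
  a : F
  b : F
  c : F
  w : F

namespace T4

variable {F : Type} [Field F] {κ : F}

theorem ext' {x y : T4 κ} (ha : x.a = y.a) (hb : x.b = y.b) (hc : x.c = y.c) (hw : x.w = y.w) :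
    x = y := by
  cases x; cases y; simp only at ha hb hc hw; rw [ha, hb, hc, hw]

instance : Zero (T4 κ) := ⟨⟨0, 0, 0, 0⟩⟩
instance : One (T4 κ) := ⟨⟨1, 0, 0, 0⟩⟩
instance : Add (T4 κ) := ⟨fun x y => ⟨x.a + y.a, x.b + y.b, x.c + y.c, x.w + y.w⟩⟩
instance : Neg (T4 κ) := ⟨fun x => ⟨-x.a, -x.b, -x.c, -x.w⟩⟩
instance : Mul (T4 κ) := ⟨fun x y => ⟨x.a * y.a, x.a * y.b + x.b * y.a, x.a * y.c + x.c * y.a,
  x.a * y.w + x.w * y.a + κ * (x.b * y.b) + (x.b * y.c + x.c * y.b)⟩⟩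

theorem pj (x y : T4 κ) :
    ((0 : T4 κ).a = 0 ∧ (0 : T4 κ).b = 0 ∧ (0 : T4 κ).c = 0 ∧ (0 : T4 κ).w = 0) ∧
    ((1 : T4 κ).a = 1 ∧ (1 : T4 κ).b = 0 ∧ (1 : T4 κ).c = 0 ∧ (1 : T4 κ).w = 0) ∧
    ((x + y).a = x.a + y.a ∧ (x + y).b = x.b + y.b ∧ (x + y).c = x.c + y.c ∧
      (x + y).w = x.w + y.w) ∧
    ((-x).a = -x.a ∧ (-x).b = -x.b ∧ (-x).c = -x.c ∧ (-x).w = -x.w) ∧
    ((x * y).a = x.a * y.a ∧ (x * y).b = x.a * y.b + x.b * y.a ∧
      (x * y).c = x.a * y.c + x.c * y.a ∧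
      (x * y).w = x.a * y.w + x.w * y.a + κ * (x.b * y.b) + (x.b * y.c + x.c * y.b)) :=
  ⟨⟨rfl, rfl, rfl, rfl⟩, ⟨rfl, rfl, rfl, rfl⟩, ⟨rfl, rfl, rfl, rfl⟩, ⟨rfl, rfl, rfl, rfl⟩,
    ⟨rfl, rfl, rfl, rfl⟩⟩

theorem z0 : (0 : T4 κ).a = 0 ∧ (0 : T4 κ).b = 0 ∧ (0 : T4 κ).c = 0 ∧ (0 : T4 κ).w = 0 :=
  (pj 0 0).1
theorem o1 : (1 : T4 κ).a = 1 ∧ (1 : T4 κ).b = 0 ∧ (1 : T4 κ).c = 0 ∧ (1 : T4 κ).w = 0 :=
  (pj 0 0).2.1
theorem ad (x y : T4 κ) : (x + y).a = x.a + y.a ∧ (x + y).b = x.b + y.b ∧ (x + y).c = x.c + y.c ∧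
    (x + y).w = x.w + y.w := (pj x y).2.2.1
theorem ng (x : T4 κ) : (-x).a = -x.a ∧ (-x).b = -x.b ∧ (-x).c = -x.c ∧ (-x).w = -x.w :=
  (pj x x).2.2.2.1
theorem ml (x y : T4 κ) : (x * y).a = x.a * y.a ∧ (x * y).b = x.a * y.b + x.b * y.a ∧
    (x * y).c = x.a * y.c + x.c * y.a ∧
    (x * y).w = x.a * y.w + x.w * y.a + κ * (x.b * y.b) + (x.b * y.c + x.c * y.b) :=
  (pj x y).2.2.2.2

instance : CommRing (T4 κ) := CommRing.ofMinimalAxioms
  (fun _ _ _ => by apply ext' <;> simp only [ad] <;> ring)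
  (fun _ => by apply ext' <;> simp only [ad, z0] <;> ring)
  (fun _ => by apply ext' <;> simp only [ad, ng, z0] <;> ring)
  (fun _ _ _ => by apply ext' <;> simp only [ml] <;> ring)
  (fun _ _ => by apply ext' <;> simp only [ml] <;> ring)
  (fun _ => by apply ext' <;> simp only [ml, o1] <;> ring)
  (fun _ _ _ => by apply ext' <;> simp only [ml, ad] <;> ring)

theorem sb (x y : T4 κ) : (x - y).a = x.a - y.a ∧ (x - y).b = x.b - y.b ∧ (x - y).c = x.c - y.c ∧
    (x - y).w = x.w - y.w := by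
  simp only [sub_eq_add_neg, ad, ng, and_self]

/-- constants -/
def io (κ : F) : F →+* T4 κ where
  toFun x := ⟨x, 0, 0, 0⟩
  map_one' := rfl
  map_zero' := rfl
  map_mul' x y := by apply ext' <;> simp only [ml] <;> ring
  map_add' x y := by apply ext' <;> simp only [ad] <;> ring

/-- the residue -/
def pa (κ : F) : T4 κ →+* F where
  toFun x := x.a
  map_one' := rfl
  map_zero' := rfl
  map_mul' _ _ := rfl
  map_add' _ _ := rfl

instance {O : Type} [CommRing O] [Algebra O F] : Algebra O (T4 κ) :=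
  ((io κ).comp (algebraMap O F)).toAlgebra

theorem am {O : Type} [CommRing O] [Algebra O F] (o : O) :
    (algebraMap O (T4 κ) o).a = algebraMap O F o ∧ (algebraMap O (T4 κ) o).b = 0 ∧
    (algebraMap O (T4 κ) o).c = 0 ∧ (algebraMap O (T4 κ) o).w = 0 := ⟨rfl, rfl, rfl, rfl⟩

instance [Finite F] : Finite (T4 κ) :=
  Finite.of_injective (fun x : T4 κ => (x.a, x.b, x.c, x.w)) fun x y h => by
    simp only [Prod.mk.injEq] at h
    exact ext' h.1 h.2.1 h.2.2.1 h.2.2.2

theorem nil_iff {x : T4 κ} : IsNilpotent x ↔ x.a = 0 := by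
  refine ⟨fun h => (h.map (pa κ)).eq_zero, fun h => ⟨3, ?_⟩⟩
  rw [pow_succ, pow_two]
  apply ext' <;> simp only [ml, z0, h] <;> ring

theorem sum_z {ι : Type} (S : Finset ι) (x : ι → T4 κ) :
    (∑ i ∈ S, x i).a = ∑ i ∈ S, (x i).a ∧ (∑ i ∈ S, x i).b = ∑ i ∈ S, (x i).b ∧
    (∑ i ∈ S, x i).c = ∑ i ∈ S, (x i).c ∧ (∑ i ∈ S, x i).w = ∑ i ∈ S, (x i).w := by
  classical
  induction S using Finset.induction_on with
  | empty => exact z0
  | insert i S hi ih => simp only [Finset.sum_insert hi, ad, ih, and_self]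

theorem ev_a (φ : MvPowerSeries (Fin 7) F →ₐ[F] T4 κ) (hφ : ∀ i, (φ (X i)).a = 0)
    (h : MvPowerSeries (Fin 7) F) : (φ h).a = constantCoeff h := by
  obtain ⟨k, e⟩ := decomp h
  have : φ (C (constantCoeff h)) = algebraMap F (T4 κ) (constantCoeff h) := φ.commutes _
  conv_lhs => rw [e]
  simp only [map_add, map_sum, map_mul, this, ad, am, sum_z, ml, hφ, zero_mul,
    Finset.sum_const_zero, add_zero, Algebra.algebraMap_self, RingHom.id_apply]

theorem ev_q (φ : MvPowerSeries (Fin 7) F →ₐ[F] T4 κ) (hφ : ∀ i, (φ (X i)).a = 0)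
    (f : Fin 7 → Fin 7 → MvPowerSeries (Fin 7) F) :
    φ (∑ i, ∑ j, X i * X j * f i j) = 0 ↔
      κ * ∑ i, ∑ j, constantCoeff (f i j) * (φ (X i)).b * (φ (X j)).b +
        pol (fun i j => constantCoeff (f i j)) (fun i => (φ (X i)).b) ⬝ᵥ
          (fun i => (φ (X i)).c) = 0 := by
  have e : φ (∑ i, ∑ j, X i * X j * f i j) = ⟨0, 0, 0,
      κ * ∑ i, ∑ j, constantCoeff (f i j) * (φ (X i)).b * (φ (X j)).b +
        pol (fun i j => constantCoeff (f i j)) (fun i => (φ (X i)).b) ⬝ᵥ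
          (fun i => (φ (X i)).c)⟩ := by
    apply ext' <;> simp only [map_sum, map_mul, sum_z, ml, hφ, ev_a φ hφ, zero_mul, mul_zero,
      add_zero, zero_add, Finset.sum_const_zero]
    simp only [pol, dotProduct, Finset.sum_mul, Finset.mul_sum, add_mul, Finset.sum_add_distrib]
    congr 1
    · exact Finset.sum_congr rfl fun i _ => Finset.sum_congr rfl fun j _ => by ring
    · congr 1
      · rw [Finset.sum_comm]
        exact Finset.sum_congr rfl fun i _ => Finset.sum_congr rfl fun j _ => by ring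
      · exact Finset.sum_congr rfl fun i _ => Finset.sum_congr rfl fun j _ => by ring
  rw [e]
  exact ⟨fun h => congrArg T4.w h, fun h => ext' rfl rfl rfl h⟩

end T4

open T4

variable {G F O : Type} [Group G] [TopologicalSpace G] [Field F] [CommRing O] [IsLocalRing O]
  [Algebra O F] {r : G →* M2 F} {s : F → O} {d : G → O} {g : Fin 7 → G} {p q : Fin 7 → Fin 2}
  {κ : F}

/-- second order condition -/
def Z2 (r : G →* M2 F) (κ : F) (t t' z : G → M2 F) : Prop :=
  IsLocallyConstant z ∧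
    (∀ x y, z (x * y) = z x * r y + r x * z y + κ • (t x * t y) + (t x * t' y + t' x * t y)) ∧
    ∀ x, pd (r x) (z x) + κ * (t x).det + pd (t x) (t' x) = 0

theorem ana (hs : ∀ x, algebraMap O F (s x) = x) {ρ : G →* M2 (T4 κ)} (h : Lift r s d ρ) :
    Z1 r (fun x => (ρ x).map T4.b) ∧ Z1 r (fun x => (ρ x).map T4.c) ∧
      Z2 r κ (fun x => (ρ x).map T4.b) (fun x => (ρ x).map T4.c) fun x => (ρ x).map T4.w := by
  have ha : ∀ x i j, (ρ x i j).a = r x i j := fun x i j => by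
    have := nil_iff.1 (h.red x i j)
    simp only [sb, am, hs] at this
    exact sub_eq_zero.1 this
  have hd : ∀ x, ρ x 0 0 * ρ x 1 1 - ρ x 0 1 * ρ x 1 0 = algebraMap O _ (d x) := fun x => by
    rw [← h.det, Matrix.det_fin_two]
  refine ⟨⟨h.lc.comp fun X : M2 (T4 κ) => X.map T4.b, fun x y => ?_, fun x => ?_⟩,
    ⟨h.lc.comp fun X : M2 (T4 κ) => X.map T4.c, fun x y => ?_, fun x => ?_⟩,
    h.lc.comp fun X : M2 (T4 κ) => X.map T4.w, fun x y => ?_, fun x => ?_⟩
  · ext i j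
    simp only [map_mul, Matrix.map_apply, Matrix.add_apply, Matrix.mul_apply, Fin.sum_univ_two, ad,
      ml, ha]
    ring
  · have := congrArg T4.b (hd x)
    simp only [sb, ml, am, ha] at this
    simp only [pd, Matrix.map_apply]
    linear_combination this
  · ext i j
    simp only [map_mul, Matrix.map_apply, Matrix.add_apply, Matrix.mul_apply, Fin.sum_univ_two, ad,
      ml, ha]
    ring
  · have := congrArg T4.c (hd x)
    simp only [sb, ml, am, ha] at this
    simp only [pd, Matrix.map_apply]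
    linear_combination this
  · ext i j
    simp only [map_mul, Matrix.map_apply, Matrix.add_apply, Matrix.mul_apply, Fin.sum_univ_two, ad,
      ml, ha, Matrix.smul_apply, smul_eq_mul]
    ring
  · have := congrArg T4.w (hd x)
    simp only [sb, ml, am, ha] at this
    simp only [pd, Matrix.map_apply, Matrix.det_fin_two]
    linear_combination this

theorem Z1.one {t : G → M2 F} (ht : Z1 r t) : t 1 = 0 := by
  have := ht.mul 1 1
  simp only [mul_one, map_one, one_mul] at this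
  exact left_eq_add.1 this

theorem syn (hr : IsLocallyConstant r) (hs : ∀ x, algebraMap O F (s x) = x)
    (hd : ∀ x, algebraMap O F (d x) = (r x).det) {t t' z : G → M2 F} (ht : Z1 r t) (ht' : Z1 r t')
    (hz : Z2 r κ t t' z) : ∃ ρ : G →* M2 (T4 κ), Lift r s d ρ ∧
      ∀ x i j, (ρ x i j).b = t x i j ∧ (ρ x i j).c = t' x i j := by
  have hz1 : z 1 = 0 := by
    have := hz.2.1 1 1
    simp only [mul_one, map_one, one_mul, ht.one, ht'.one, mul_zero, smul_zero, add_zero] at this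
    exact left_eq_add.1 this
  let ρ : G →* M2 (T4 κ) :=
    { toFun := fun x => Matrix.of fun i j => ⟨r x i j, t x i j, t' x i j, z x i j⟩
      map_one' := by
        ext i j
        fin_cases i <;> fin_cases j <;> apply ext' <;> simp [ht.one, ht'.one, hz1, z0, o1]
      map_mul' := fun x y => by
        ext i j
        apply ext' <;> simp only [Matrix.of_apply, Matrix.mul_apply, Fin.sum_univ_two, ad, ml,
          map_mul, ht.mul, ht'.mul, hz.2.1, Matrix.add_apply, Matrix.smul_apply, smul_eq_mul] <;>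
          ring }
  refine ⟨ρ, ⟨(hr.prodMk ht.lc).comp₂ (ht'.lc.prodMk hz.1)
    fun X Y => Matrix.of fun i j => (⟨X.1 i j, X.2 i j, Y.1 i j, Y.2 i j⟩ : T4 κ),
    fun a ha => nil_iff.2 ?_, fun x i j => nil_iff.2 ?_, fun x => ?_⟩, fun x i j => ⟨rfl, rfl⟩⟩
  · rw [← ker_eq hs] at ha
    exact ha
  · simp only [sb, am, hs]
    exact sub_self _
  · have e1 := ht.det x
    have e2 := ht'.det x
    have e3 := hz.2.2 x
    simp only [pd, Matrix.det_fin_two] at e1 e2 e3
    have e : ∀ i j, ρ x i j = ⟨r x i j, t x i j, t' x i j, z x i j⟩ := fun _ _ => rfl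
    apply ext' <;> simp only [Matrix.det_fin_two, sb, ml, am, e, hd]
    · linear_combination e1
    · linear_combination e2
    · linear_combination e3

theorem Z1.sub {t t' : G → M2 F} (ht : Z1 r t) (ht' : Z1 r t') : Z1 r fun x => t x - t' x where
  lc := ht.lc.comp₂ ht'.lc fun X Y => X - Y
  mul x y := by rw [ht.mul, ht'.mul]; noncomm_ring
  det x := by
    have e1 := ht.det x
    have e2 := ht'.det x
    simp only [pd, Matrix.sub_apply] at e1 e2 ⊢
    linear_combination e1 - e2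

theorem Z1.eq (hT : Tn r g p q) {t t' : G → M2 F} (ht : Z1 r t) (ht' : Z1 r t')
    (h : ∀ i, t (g i) (p i) (q i) = t' (g i) (p i) (q i)) : t = t' :=
  funext fun x => sub_eq_zero.1 (hT _ (ht.sub ht') (fun i => sub_eq_zero.2 (h i)) x)

theorem Z1.zero : Z1 r fun _ => 0 where
  lc := IsLocallyConstant.const _
  mul x y := by simp
  det x := by simp [pd]

theorem Z1.scal [CharP F 2] (hr : IsLocallyConstant r) {a : G → F} (ha : IsLocallyConstant a)
    (ha' : ∀ x y, a (x * y) = a x + a y) : Z1 r fun x => a x • r x where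
  lc := ha.comp₂ hr fun c X => c • X
  mul x y := by simp only [ha', map_mul, add_smul, smul_mul_assoc, mul_smul_comm]
  det x := by
    have : (2 : F) = 0 := CharTwo.two_eq_zero
    simp only [pd, Matrix.smul_apply, smul_eq_mul]
    linear_combination (a x * (r x 0 0 * r x 1 1 - r x 0 1 * r x 1 0)) * this

/-- evaluation through the reduction -/
def thr (φ : MvPowerSeries (Fin 7) F →ₐ[F] T4 κ) : MvPowerSeries (Fin 7) O →ₐ[O] T4 κ :=
  { φ.toRingHom.comp (MvPowerSeries.map (algebraMap O F)) with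
    commutes' := fun o => by
      show φ (MvPowerSeries.map (algebraMap O F) (C o)) = _
      rw [map_C]
      exact φ.commutes _ }

theorem thr_apply (φ : MvPowerSeries (Fin 7) F →ₐ[F] T4 κ) (f : MvPowerSeries (Fin 7) O) :
    thr φ f = φ (MvPowerSeries.map (algebraMap O F) f) := rfl

theorem thr_X (φ : MvPowerSeries (Fin 7) F →ₐ[F] T4 κ) (i : Fin 7) :
    thr (O := O) φ (X i) = φ (X i) := by rw [thr_apply, map_X]

/-- an obstruction gives an equation -/
theorem obs [Finite F] [IsNoetherianRing O] [IsAdicComplete (maximalIdeal O) O]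
    (hr : IsLocallyConstant r) (hs : ∀ x, algebraMap O F (s x) = x)
    (hd : ∀ x, algebraMap O F (d x) = (r x).det) (hT : Tn r g p q) {t t' : G → M2 F}
    (ht : Z1 r t) (ht' : Z1 r t') (hz : ¬ ∃ z, Z2 r κ t t' z) :
    ∃ φ : MvPowerSeries (Fin 7) F →ₐ[F] T4 κ,
      (∀ i, φ (X i) = ⟨0, t (g i) (p i) (q i), t' (g i) (p i) (q i), 0⟩) ∧
      ∃ f ∈ sInf (Fam r s d g p q), thr φ f ≠ 0 := by
  obtain ⟨φ, hφ⟩ := exists_ev (O := F)
    (fun i => (⟨0, t (g i) (p i) (q i), t' (g i) (p i) (q i), 0⟩ : T4 κ)) fun i => nil_iff.2 rfl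
  refine ⟨φ, hφ, ?_⟩
  by_contra hc
  push Not at hc
  obtain ⟨ρ, h, e⟩ := lift_of hr hs hd hT (fun a ha => nil_iff.2 (by
    rw [← ker_eq hs] at ha
    exact ha)) (thr φ) (fun i => nil_iff.2 (by rw [thr_X, hφ])) hc
  obtain ⟨h1, h2, h3⟩ := ana hs h
  have e1 := Z1.eq hT h1 ht fun i => by
    have := congrArg T4.b (e i)
    simp only [thr_X, hφ, co, sb, am, sub_zero] at this
    exact this.symm
  have e2 := Z1.eq hT h2 ht' fun i => by
    have := congrArg T4.c (e i)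
    simp only [thr_X, hφ, co, sb, am, sub_zero] at this
    exact this.symm
  rw [e1, e2] at h3
  exact hz ⟨_, h3⟩

theorem shell : ShellS := by
  intro G F O _ _ _ _ _ _ _ _ _ _ r s d hr hs hd ⟨⟨g, p, q, hT⟩, ⟨a, ha, ha', hA⟩, t, t', ht, ht', hB⟩
  have h2 : (2 : F) = 0 := CharTwo.two_eq_zero
  have hα := Z1.scal hr ha ha'
  obtain ⟨φ₁, e₁, f₁, m₁, n₁⟩ := obs (κ := 1) hr hs hd hT hα Z1.zero (by
    rintro ⟨z, h1, h3, h4⟩
    refine hA ⟨z, h1, fun x y => ?_, fun x => ?_⟩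
    · rw [h3]
      simp only [one_smul, mul_zero, zero_mul, add_zero, map_mul, smul_mul_smul_comm]
    · have := h4 x
      simp only [pd, Matrix.det_fin_two, Matrix.smul_apply, smul_eq_mul, Matrix.zero_apply]
        at this ⊢
      linear_combination this)
  obtain ⟨φ₂, e₂, f₂, m₂, n₂⟩ := obs (κ := 0) hr hs hd hT ht ht' (by
    rintro ⟨z, h1, h3, h4⟩
    exact hB ⟨z, h1, fun x y => by simpa using h3 x y, fun x => by simpa using h4 x⟩)
  obtain ⟨f, m, n₁, n₂⟩ : ∃ f ∈ sInf (Fam r s d g p q), thr φ₁ f ≠ 0 ∧ thr φ₂ f ≠ 0 := by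
    by_cases c₁ : thr φ₂ f₁ = 0
    · by_cases c₂ : thr φ₁ f₂ = 0
      · exact ⟨f₁ + f₂, Ideal.add_mem _ m₁ m₂, by rwa [map_add, c₂, add_zero],
          by rwa [map_add, c₁, zero_add]⟩
      · exact ⟨f₂, m₂, c₂, n₂⟩
    · exact ⟨f₁, m₁, n₁, c₁⟩
  obtain ⟨I0, hI0, hle⟩ := fam_ne (g := g) (p := p) (q := q) hr hs hd
  have hf : f ∈ maximalIdeal (MvPowerSeries (Fin 7) O) := hle (sInf_le hI0 m)
  refine ⟨g, p, q, f, hf, blk_of _ fun K _ ψ h0 hD => ?_, hT, fun A _ _ _ ρ h =>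
    ⟨gen hr hs hd hT h, fun φ hφ => (sInf_le (s := Fam r s d g p q)
      ⟨A, _, _, ‹_›, ρ, φ, h, hφ, rfl⟩ : _ ≤ RingHom.ker φ.toRingHom) m⟩⟩
  rw [thr_apply] at n₁ n₂
  have htw : ∀ u, Z1 r u → ∃ φ : MvPowerSeries (Fin 7) F →ₐ[F] T4 (0 : F),
      (∀ i, (φ (X i)).a = 0) ∧ (∀ i, (φ (X i)).b = a (g i) * r (g i) (p i) (q i)) ∧
      (∀ i, (φ (X i)).c = u (g i) (p i) (q i)) ∧ φ (MvPowerSeries.map (algebraMap O F) f) = 0 := by
    intro u hu
    obtain ⟨ρ, h, e⟩ := syn (κ := 0) (z := fun x => a x • u x) hr hs hd hα hu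
      ⟨ha.comp₂ hu.lc fun c X => c • X, fun x y => by
        simp only [ha', hu.mul, add_smul, smul_add, smul_mul_assoc, mul_smul_comm, zero_smul]
        abel, fun x => by
        have := hu.det x
        simp only [pd, Matrix.smul_apply, smul_eq_mul] at this ⊢
        linear_combination 2 * a x * this⟩
    obtain ⟨φ, hφ⟩ := exists_ev (O := F) (co r s g p q ρ) fun i => h.red _ _ _
    refine ⟨φ, fun i => nil_iff.1 (hφ i ▸ h.red _ _ _), fun i => ?_, fun i => ?_, ?_⟩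
    · simp only [hφ, co, sb, am, e, sub_zero, Matrix.smul_apply, smul_eq_mul]
    · simp only [hφ, co, sb, am, e, sub_zero]
    · exact (sInf_le (s := Fam r s d g p q) ⟨_, _, _, inferInstance, ρ, thr φ, h,
        fun i => by rw [thr_X, hφ], rfl⟩ : _ ≤ RingHom.ker (thr φ).toRingHom) m
  have hc : constantCoeff (MvPowerSeries.map (algebraMap O F) f) = 0 := by
    rw [mem_max_iff, ← ker_eq hs] at hf
    rw [constantCoeff_map]
    exact hf
  generalize MvPowerSeries.map (algebraMap O F) f = fb at *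
  obtain ⟨h, eh⟩ := decomp fb
  rw [hc, map_zero, zero_add] at eh
  have hh : ∀ k, constantCoeff (h k) = 0 := by
    intro k
    by_contra hk
    have e : constantCoeff (pderiv F k fb) = constantCoeff (h k) := by
      simp only [eh, map_sum, Derivation.leibniz, smul_eq_mul, pderiv_X, Pi.single_apply, map_add,
        map_mul, constantCoeff_X, zero_mul, zero_add, apply_ite constantCoeff, map_one, map_zero,
        mul_ite, mul_one, mul_zero, Finset.sum_ite_eq, Finset.sum_ite_eq', Finset.mem_univ, if_true]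
    have : IsUnit (pderiv F k fb) := isUnit_iff_constantCoeff.2 (e ▸ IsUnit.mk0 _ hk)
    exact (this.map ψ).ne_zero (hD k)
  choose w hw using fun k => decomp (h k)
  have ef : fb = ∑ i, ∑ j, X i * X j * w i j := by
    rw [eh]
    refine Finset.sum_congr rfl fun i _ => ?_
    rw [hw i, hh, map_zero, zero_add, Finset.mul_sum]
    exact Finset.sum_congr rfl fun j _ => (mul_assoc _ _ _).symm
  clear eh
  subst ef
  rw [Ne, ev_q _ (fun i => by rw [e₁])] at n₁
  rw [Ne, ev_q _ (fun i => by rw [e₂])] at n₂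
  have hp : ∀ u, Z1 r u → pol (fun i j => constantCoeff (w i j))
      (fun i => u (g i) (p i) (q i)) ⬝ᵥ (fun i => a (g i) * r (g i) (p i) (q i)) = 0 := by
    intro u hu
    obtain ⟨φ, k1, k2, k3, k4⟩ := htw u hu
    rw [ev_q _ k1] at k4
    simp only [k2, k3, zero_mul, zero_add] at k4
    rw [pol_symm, k4]
  refine sing w _ _ _ ?_ ?_ (hp t ht) (hp t' ht') ψ h0 hD
  · simpa [e₁] using n₁
  · simpa [e₂] using n₂

end Vale.Agent.P022D.L2b
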